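import Vale.Agent.P354XZ.Props

/-!
The far zone: the family of all words. Vw w i is the normalised component i of the derivative of
the Weyl spinor along the word w, minus the value of the reference solution.
-/

open Set

noncomputable section

namespace Vale.Agent.P354XZ

abbrev Lt := Bool × Bool

variable {A : Type} [CommRing A] [Algebra ℂ A]

/-- A coupled system of Bianchi type; a is the number of letters r R. -/
structure NF.SysW (F : NF A) (C : Ch A) {W : Type} [Fintype W] (a : ℕ) (am : W → W → ℤ)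
    (V : W → Fin 5 → A) (SA SB : W → Fin 4 → A) : Prop where
  eqA : ∀ j (i : Fin 4), F.n C (V j i.castSucc) = F.m C (V j i.succ) +
    (((i : ℕ) + 1 : ℕ) - (a : A)) * C.ri * V j i.castSucc +
    ∑ j2, (am j j2 : A) * C.ri * V j2 i.succ + SA j i
  eqB : ∀ j (i : Fin 4), C.R (V j i.succ) = F.mb C (V j i.castSucc) -
    ((4 - (i : ℕ) : ℕ) : A) * C.ri * V j i.succ -
    ∑ j2, (am j2 j : A) * C.ri * V j2 i.castSucc + SB j i

/-- The gauge quantities and their classes (0 = b, 1 = g, 2 = h). -/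
abbrev Gi := Fin 7 ⊕ Fin 9 ⊕ Fin 2
def Un.at (U : Un A) : Gi → A := Sum.elim U.b (Sum.elim U.g U.h)
def cls : Gi → ℕ := Sum.elim (fun _ => 0) (Sum.elim (fun _ => 1) fun _ => 2)

/-- The admissible products in the equation number i (e = true: eqA, e = false: eqB). -/
def okGV (e : Bool) (i c j : ℕ) : Prop :=
  if e then (c = 0 ∧ j ≤ i) ∨ (1 ≤ c ∧ j ≤ i + 1) ∨ (c = 2 ∧ j = i + 2)
  else (1 ≤ c ∧ j ≤ i) ∨ (c = 2 ∧ j = i + 1)
def okKG (e : Bool) (i : ℕ) (g : Gi) : Prop :=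
  g = Sum.inr (Sum.inr 0) ∨ (1 ≤ i ∧ 1 ≤ cls g) ∨ (e = true ∧ 2 ≤ i)
def okVV (e : Bool) (i k1 k2 : ℕ) : Prop :=
  (k1 ≤ 1 ∧ k2 = i + 2) ∨ (k2 ≤ i + 1 ∧ (e = true ∨ k1 ≤ 3 ∨ k2 ≤ i))

namespace Ch
variable (C : Ch A)

/-- f or its conjugate. -/
def cb (b : Bool) (f : A) : A := if b then C.c f else f

/-- The admissible sources for the words of length s. -/
inductive Src (U : Un A) (Vw : List Lt → Fin 5 → A) (s : ℕ) (e : Bool) (i : ℕ) : A → Prop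
  | zero : Src U Vw s e i 0
  | add {f g : A} : Src U Vw s e i f → Src U Vw s e i g → Src U Vw s e i (f + g)
  | smul (z : ℤ) {f : A} : Src U Vw s e i f → Src U Vw s e i (z * f)
  | kv2 {K : A} (w : List Lt) (j : Fin 5) : C.Sy 2 K → w.length ≤ s → (j : ℕ) ≤ i + 1 →
      Src U Vw s e i (K * Vw w j)
  | kv3 {K : A} (b : Bool) (w : List Lt) (j : Fin 5) : C.Sy 3 K → w.length ≤ s →
      Src U Vw s e i (K * C.cb b (Vw w j))
  | kg3 {K : A} (b : Bool) (g : Gi) : C.Sy 3 K → okKG e i g → Src U Vw s e i (K * C.cb b (U.at g))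
  | kg4 {K : A} (b : Bool) (g : Gi) : C.Sy 4 K → Src U Vw s e i (K * C.cb b (U.at g))
  | gv (b : Bool) (g : Gi) (w : List Lt) (j : Fin 5) : w.length ≤ s → okGV e i (cls g) j →
      Src U Vw s e i (C.cb b (U.at g) * Vw w j)
  | vv (b : Bool) (w1 w2 : List Lt) (k1 k2 : Fin 5) : w1.length + w2.length < s →
      okVV e i k1 k2 → Src U Vw s e i (C.cb b (Vw w1 k1) * Vw w2 k2)

/-- The family of the words of length s, after k letters T. -/
def Vs (Vw : List Lt → Fin 5 → A) (k s : ℕ) (j : Fin s → Lt) (i : Fin 5) : A :=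
  (C.T)^[k] (Vw (List.ofFn j) i)

/-- The densities of the words of length s, and of length at most s. -/
def dW (D : Fin 5 → Fam C.J) (o : A → A) (Vw : List Lt → Fin 5 → A) (k s : ℕ) : A :=
  ∑ j, C.dn D o (C.Vs Vw k s j)
def dWl (D : Fin 5 → Fam C.J) (o : A → A) (Vw : List Lt → Fin 5 → A) (k s : ℕ) : A :=
  ∑ s' ∈ Finset.range (s + 1), C.dW D o Vw k s'

/-- The table of the family. -/
def TabW (m N : ℕ) (e : C.J → ℝ) (Vw : List Lt → Fin 5 → A) : Prop :=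
  ∀ i w, i ≤ m → i + w.length ≤ N → C.TabV i 0 e (Vw w) univ

end Ch

variable (C : Ch A) (F F0 : NF A) (t : Fin 4 → A) (K : Cut C) (Vw : List Lt → Fin 5 → A)

/-- The estimate of the four pairs for coupled systems. -/
def F1W : Prop := St C F F0 t K 1 → ∃ c > 0, ∃ B, ∀ j, K.de j ≤ c →
  ∀ l ∈ Icc (0 : ℝ) (1 / 100), ∀ ps, K.Cau F j ps → ∀ (W : Type) [Fintype W] (a : ℕ)
  (am : W → W → ℤ) V SA SB, F.SysW C a am V SA SB →
    K.E j ps (∑ w, C.dn (C.Dw K.p l) (C.sw 0 0) (V w)) ≤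
      B * (K.E j ps (∑ w, C.dS K.p l (SA w) (SB w)) +
        K.L j ps (∑ w, C.dn (C.DL K.p l) (C.sw 0 0) (V w)))

/-- The algebra: the system without letters. -/
def BS : Prop := ∀ s, ∃ am SA SB, F.SysW C 0 am (C.Vs Vw 0 s) SA SB ∧
  ∀ w (i : Fin 4), C.Src (F.df F0 C) Vw s true i (SA w i) ∧
    C.Src (F.df F0 C) Vw s false i (SB w i)

/-- The range of the orders. -/
def Rng (n k s m m' N : ℕ) (l : ℝ) : Prop :=
  ((l ∈ Icc (0 : ℝ) (1 / 100) ∧ n + k ≤ m) ∨ (l = 1 / 100 ∧ n + k ≤ m + m')) ∧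
    m' ≤ m ∧ m' ≤ N ∧ n + k ≤ 2 * m' + 1 ∧ n + k + s ≤ N + m'

/-- The small terms of the right hand side. -/
def sml (B B' l : ℝ) (n k s : ℕ) (x : C.Pt) : ℝ :=
  B * K.de x.1 ^ 2 * C.val x (C.dWl (C.Dw K.p l) (C.sl (n + 1)) Vw k s +
      C.dG K.p l (C.sl (n + 1)) ((F.df F0 C).map (C.T)^[k])) +
    B' * (K.ep x.1 * K.pm x.1) ^ 2 * C.val x (C.dWl (C.Dw K.p l) (C.sl (n + k + 1)) Vw 0 s +
      C.dG K.p l (C.sl (n + k + 1)) (F.df F0 C))

/-- The jets of admissible sources. -/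
def SRC : Prop := F.Ga F0 C t → K.Is → ∀ s (e : Bool) (i : Fin 4) f,
  C.Src (F.df F0 C) Vw s e i f → ∀ n, ∃ B, ∀ k, ∃ B', ∀ m m' N,
  C.TabG m K.ep (F.df F0 C) univ → C.TabW m' N K.ep Vw → ∀ l, Rng n k s m m' N l →
  ∀ x : C.Pt, K.de x.1 ≤ 1 →
    C.val x (C.fn (if e then C.OA K.p l i else C.OB K.p l i) * C.sl (n + 1) ((C.T)^[k] f)) ≤
      sml C F F0 K Vw B B' l n k s x

/-- The commutation with the letters; SA, SB are the sources without letters. -/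
def COM : Prop := F.Ga F0 C t → K.Is → ∀ s (am : (Fin s → Lt) → (Fin s → Lt) → ℤ) n, ∃ B, ∀ k,
  ∃ B', ∀ SA SB, F.SysW C 0 am (C.Vs Vw 0 s) SA SB → ∀ I : List (Fin 5), I.length = n →
  ∃ SA' SB', F.SysW C (Ch.la I) am (fun w i => C.wd I (C.Vs Vw k s w i)) SA' SB' ∧
  ∀ m m' N, C.TabG m K.ep (F.df F0 C) univ → C.TabA (n + k) K.ep F.al → C.TabW m' N K.ep Vw →
  ∀ l, Rng n k s m m' N l → ∀ x : C.Pt, K.de x.1 ≤ 1 →
    C.val x (∑ w, C.dS K.p l (SA' w) (SB' w)) ≤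
      B * C.val x (∑ w, (C.dn (C.OA K.p l) (C.sl (n + 1)) (fun i => (C.T)^[k] (SA w i)) +
        C.dn (C.OB K.p l) (C.sl (n + 1)) fun i => (C.T)^[k] (SB w i))) +
      B * C.val x (C.dW (C.Dw K.p l) (C.sw n (Ch.om I + 1)) Vw k s +
        C.dW (C.Dw K.p l) (C.sl n) Vw k s) + sml C F F0 K Vw B B' l n k s x

/-- The sources of the whole family. -/
def F7 : Prop := F.Ga F0 C t → K.Is → ∀ s n, ∃ B, ∀ k, ∃ B', ∀ I : List (Fin 5), I.length = n →
  ∃ am SA SB, F.SysW C (Ch.la I) am (fun w i => C.wd I (C.Vs Vw k s w i)) SA SB ∧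
  ∀ m m' N, C.TabG m K.ep (F.df F0 C) univ → C.TabA (n + k) K.ep F.al → C.TabW m' N K.ep Vw →
  ∀ l, Rng n k s m m' N l → ∀ x : C.Pt, K.de x.1 ≤ 1 →
    C.val x (∑ w, C.dS K.p l (SA w) (SB w)) ≤
      B * C.val x (C.dW (C.Dw K.p l) (C.sw n (Ch.om I + 1)) Vw k s +
        C.dW (C.Dw K.p l) (C.sl n) Vw k s) + sml C F F0 K Vw B B' l n k s x

end Vale.Agent.P354XZ
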