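import Vale.Agent.P354XZ.Defs

/-!
The far zone: the outgoing gauge, unknowns, tables, densities, cut-offs, exact statements.
-/

open Set

noncomputable section

namespace Vale.Agent.P354XZ

open Vale.Agent.P354XG (Der GHP)

variable {A : Type} [CommRing A] [Algebra ℂ A]

/-- A solution in the outgoing gauge: th = N R, ka = 0; nc and mc are the components of the
normalised fields n and m, ga and be the boost parts of the connection; al is the part of mc 0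
which is conserved along the rays. -/
structure NF (A : Type) [CommRing A] [Algebra ℂ A] where
  G : GHP A
  nc : Fin 5 → A
  mc : Fin 5 → A
  ga : A
  be : A
  al : A

structure NF.Is (F : NF A) (C : Ch A) : Prop where
  is : F.G.Is
  c_eq : F.G.c = C.c
  HS : ∀ f, F.G.H f + F.G.Hb f = C.S f
  HV : ∀ f, F.G.H f - F.G.Hb f = C.an 2 f
  th : ∀ f, F.G.th f = C.N * C.R f
  ka : F.G.ka = 0
  tp : ∀ f, 2 * (C.N * F.G.tp f) = 2 * C.vf F.nc f + F.ga * C.S f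
  et : ∀ f, 2 * F.G.et f = 2 * C.vf F.mc f + F.be * C.S f
  al : C.R (C.r * F.al) = 0 ∧ C.S F.al = 0

namespace NF
variable (F : NF A) (C : Ch A)

def n : Der A := C.vf F.nc
def m : Der A := C.vf F.mc
def mb : Der A := C.vf (C.cj F.mc)

/-- The normalised frame. -/
def e : Fin 4 → Der A := ![C.R, F.n C, F.m C, F.mb C]

/-- The power of N which removes the boost weight b. -/
def nz (C : Ch A) (b : ℤ) : A := (C.N ^ (-b) : Aˣ)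

/-- The normalised gauge quantities of the classes b, g, gg. -/
def gb : Fin 7 → A :=
  ![F.ga, nz C (-2) * F.G.ka', F.nc 0, C.ri * F.nc 1, F.nc 2, F.nc 3, F.nc 4]
def g1 : Fin 9 → A :=
  ![F.G.ta, nz C (-1) * F.G.si', nz C (-1) * F.G.rh', F.be, F.mc 0 - F.al, C.ri * F.mc 1, F.mc 2,
    F.mc 3, F.mc 4]
def g2 : Fin 2 → A := ![nz C 1 * F.G.si, nz C 1 * F.G.rh]

/-- Components of Weyl type without boost weight. -/
def nw (C : Ch A) (V : Fin 5 → A) (i : Fin 5) : A := nz C (2 - (i : ℕ)) * V i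

/-- The reference solution (Kerr far out), and the components t of the field T in the frame. -/
structure Ref (t : Fin 4 → A) : Prop where
  is : F.Is C
  n0 : C.Sy 2 (F.nc 0 - 2)
  n1 : C.Sy 1 (F.nc 1 + 1)
  na : C.Sy 2 (F.nc 2) ∧ C.Sy 2 (F.nc 3) ∧ C.Sy 2 (F.nc 4)
  m0 : C.Sy 1 (F.mc 0) ∧ C.Sy 1 (F.mc 1)
  ma : C.Sy 2 (F.mc 2) ∧ C.Sy 2 (F.mc 3 - C.ri) ∧ C.Sy 2 (F.mc 4)
  gb : C.Sy 2 F.ga ∧ C.Sy 2 F.be ∧ C.Sy 2 F.G.ta ∧ C.Sy 2 F.G.ta'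
  rh : C.Sy 2 (nz C 1 * F.G.rh + C.ri) ∧ C.Sy 2 (nz C (-1) * F.G.rh' - C.ri)
  zero : F.G.si = 0 ∧ F.G.si' = 0 ∧ F.G.ka' = 0 ∧ F.G.P0 = 0 ∧ F.G.P1 = 0 ∧ F.G.P3 = 0 ∧
    F.G.P4 = 0
  P2 : C.Sy 3 F.G.P2
  al : F.al = 0
  t0 : C.Sy 1 (2 * t 0 - 1) ∧ C.Sy 1 (2 * t 1 - 1) ∧ C.Sy 1 (t 2)
  tc : C.c (t 0) = t 0 ∧ C.c (t 1) = t 1 ∧ t 3 = C.c (t 2)
  tw : C.S (t 0) = 0 ∧ C.S (t 1) = 0 ∧ C.S (t 2) = 0 ∧ C.an 2 (t 0) = 0 ∧ C.an 2 (t 1) = 0 ∧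
    C.an 2 (t 2) = -(2 * t 2)

/-- A system of Bianchi type with the sources SA, SB; a is the number of letters r R. -/
structure Sys (a : ℕ) (V : Fin 5 → A) (SA SB : Fin 4 → A) : Prop where
  eqA : ∀ i : Fin 4, F.n C (V i.castSucc) = F.m C (V i.succ) +
    (((i : ℕ) + 1 : ℕ) - (a : A)) * C.ri * V i.castSucc + SA i
  eqB : ∀ i : Fin 4, C.R (V i.succ) = F.mb C (V i.castSucc) -
    ((4 - (i : ℕ) : ℕ) : A) * C.ri * V i.succ + SB i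

end NF

/-- The unknowns: curvature and the three classes of gauge quantities. -/
structure Un (A : Type) where
  V : Fin 5 → A
  b : Fin 7 → A
  g : Fin 9 → A
  h : Fin 2 → A

def Un.map (U : Un A) (φ : A → A) : Un A := ⟨φ ∘ U.V, φ ∘ U.b, φ ∘ U.g, φ ∘ U.h⟩

def NF.W (F : NF A) : Fin 5 → A := ![F.G.P0, F.G.P1, F.G.P2, F.G.P3, F.G.P4]

/-- The difference of the solution F and the reference F0. -/
def NF.df (F F0 : NF A) (C : Ch A) : Un A :=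
  ⟨NF.nw C F.W - NF.nw C F0.W, F.gb C - F0.gb C, F.g1 C - F0.g1 C, F.g2 C - F0.g2 C⟩

/-- F is in the gauge of F0. -/
structure NF.Ga (F F0 : NF A) (C : Ch A) (t : Fin 4 → A) : Prop where
  ch : C.Is
  is : F.Is C
  rf : F0.Ref C t
  ta : F.G.ta' = F0.G.ta'

namespace Ch
variable (C : Ch A)

/-- The tables of suprema. -/
def TabV (n : ℕ) (l : ℝ) (e : C.J → ℝ) (V : Fin 5 → A) (Y : Set C.Pt) : Prop :=
  ∀ x ∈ Y, ∀ i, C.rr x * C.at' (C.Dt l i) x * C.jet n (V i) x ^ 2 ≤ e x.1 ^ 2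
def TabG (n : ℕ) (e : C.J → ℝ) (U : Un A) (Y : Set C.Pt) : Prop :=
  ∀ x ∈ Y, (∀ i, C.jet n (U.b i) x ≤ e x.1 * C.at' C.Sb x) ∧
    (∀ i, C.jet n (U.g i) x ≤ e x.1 * C.at' C.Sg x) ∧
    ∀ i, C.jet n (U.h i) x ≤ e x.1 * C.at' C.Sh x

def TabA (n : ℕ) (e : C.J → ℝ) (al : A) : Prop :=
  ∀ x, C.jet n al x ≤ e x.1 * C.at' (C.mon (-1) 0 0) x

/-- Densities; s is one of sw n k, sl n. -/
def dn {ι : Type} [Fintype ι] (D : ι → Fam C.J) (s : A → A) (V : ι → A) : A :=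
  ∑ i, C.fn (D i) * s (V i)
def dG (p : Fam C.J) (l : ℝ) (s : A → A) (U : Un A) : A :=
  C.dn (fun _ => C.Zb l) s U.b + C.dn (fun _ => C.Zg l) s U.g + C.dn (C.Zh p l) s U.h
def dA (l : ℝ) (s : A → A) (al : A) : A := C.fn (C.mon (-2) 0 0 * C.Zg l) * s al
def dS (p : Fam C.J) (l : ℝ) (SA SB : Fin 4 → A) : A :=
  C.dn (C.OA p l) (C.sw 0 0) SA + C.dn (C.OB p l) (C.sw 0 0) SB

end Ch

/-- The cut-offs: chi vanishes near the inner boundary and is 1 off the layer lay; p is the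
bending factor, pm its bound; ep is the size of the solution. -/
structure Cut (C : Ch A) where
  chi : Fam C.J
  lay : Fam C.J
  p : Fam C.J
  pm : C.J → ℝ
  ep : C.J → ℝ

namespace Cut
variable {C : Ch A} (K : Cut C)

/-- The small quantity. -/
def de (j : C.J) : ℝ := K.ep j * K.pm j + C.R0 j ^ (-1 / 10 : ℝ)

structure Is : Prop where
  sm : SmF K.chi ∧ SmF K.lay ∧ SmF K.p
  ep : ∀ j, 0 ≤ K.ep j
  pos : ∀ j u r, 0 < r → 0 < K.p j u r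
  rng : ∀ j, ∀ q ∈ C.Dom j, K.chi j q.1 q.2 ∈ Icc 0 1 ∧ K.lay j q.1 q.2 ∈ Icc 0 1
  near : ∃ L, ∀ j, ∀ q ∈ C.Dom j, K.lay j q.1 q.2 ≠ 0 → q.2 ≤ L * C.ut j q.1
  dchi : ∃ L, ∀ j, ∀ q ∈ C.Dom j, q.2 ^ 2 * (deriv (fun u => K.chi j u q.2) q.1 ^ 2 +
    deriv (K.chi j q.1) q.2 ^ 2) ≤ L * (K.chi j q.1 q.2 * K.lay j q.1 q.2) ∧
    q.2 * (|deriv (fun u => K.chi j u q.2) q.1| + |deriv (K.chi j q.1) q.2|) ≤
      L * K.lay j q.1 q.2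
  pu : ∀ j u u' r, K.p j u r = K.p j u' r
  ple : ∀ j, ∀ q ∈ C.Dom j, 1 ≤ K.p j q.1 q.2 ∧ K.p j q.1 q.2 ≤ K.pm j ∧
    K.p j q.1 q.2 ≤ C.mon 2 0 0 j q.1 q.2 ∧ K.p j q.1 q.2 ≤ C.mon 0 0 2 j q.1 q.2
  dp : ∀ j, ∀ q ∈ C.Dom j, 0 ≤ deriv (K.p j q.1) q.2 ∧ q.2 * deriv (K.p j q.1) q.2 ≤
    (19 / 5 - 28 / 5 * q.2 / C.vv j q.1 q.2) * K.p j q.1 q.2

/-- The integrals with the weight ps in the bulk and in the layer. -/
def E (j : C.J) (ps f : A) : ℝ := (C.B j).J (ps * C.fn K.chi * f)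
def L (j : C.J) (ps f : A) : ℝ := (C.B j).J (ps * C.fn K.lay * f)

/-- A weight which decreases in all future causal directions (with a margin). -/
structure Cau (F : NF A) (j : C.J) (ps : A) : Prop where
  re : C.c ps = ps
  cpt : ps * C.fn K.chi ∈ (C.B j).K ∧ ps * C.fn K.lay ∈ (C.B j).K ∧
    ps * C.T (C.fn K.chi) ∈ (C.B j).K ∧ ps * C.R (C.fn K.chi) ∈ (C.B j).K
  pos : ∀ x : C.Pt, x.1 = j → 0 ≤ C.val x ps ∧ C.val x (C.R ps) ≤ 0 ∧ C.val x (F.n C ps) ≤ 0 ∧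
    2 * C.md x (F.m C ps) ^ 2 ≤ C.val x (C.R ps) * C.val x (F.n C ps)

end Cut

/-- The standing assumptions. -/
structure St (C : Ch A) (F F0 : NF A) (t : Fin 4 → A) (K : Cut C) (m : ℕ) : Prop where
  ga : F.Ga F0 C t
  cut : K.Is
  tab : C.TabG m K.ep (F.df F0 C) univ
  al : C.TabA m K.ep F.al

variable (C : Ch A) (F F0 : NF A) (t : Fin 4 → A) (K : Cut C)

/-- The estimate of the four pairs. -/
def F1 : Prop := St C F F0 t K 1 → ∃ c > 0, ∃ B, ∀ j, K.de j ≤ c → ∀ l ∈ Icc (0 : ℝ) (1 / 100),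
  ∀ ps, K.Cau F j ps → ∀ a V SA SB, F.Sys C a V SA SB →
    K.E j ps (C.dn (C.Dw K.p l) (C.sw 0 0) V) ≤
      B * (K.E j ps (C.dS K.p l SA SB) + K.L j ps (C.dn (C.DL K.p l) (C.sw 0 0) V))

/-- Transport in the mean; the constant of the linear part does not depend on the number k of
additional letters T. -/
def F5a : Prop := F.Ga F0 C t → K.Is → ∀ n : ℕ, ∃ c > 0, ∃ B, ∀ k, ∃ B', ∀ m,
  C.TabG m K.ep (F.df F0 C) univ → C.TabA (n + k) K.ep F.al → n + k ≤ 2 * m → ∀ j, K.de j ≤ c →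
  ∀ l ∈ Icc (0 : ℝ) (1 / 100), ∀ ps, K.Cau F j ps →
    K.E j ps (C.dG K.p l (C.sl (n + 1)) ((F.df F0 C).map (C.T)^[k])) ≤
      B * (K.E j ps (C.dn (C.Dw K.p l) (C.sl (n + 1)) ((F.df F0 C).map (C.T)^[k]).V) +
        K.L j ps (C.dG K.p l (C.sl (n + 1)) ((F.df F0 C).map (C.T)^[k])) +
        K.E j ps (C.dA l (C.sl (n + 1)) ((C.T)^[k] F.al))) +
      B' * K.ep j ^ 2 * K.pm j * K.E j ps (C.dG K.p l (C.sl (n + k + 1)) (F.df F0 C))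

/-- Transport of the suprema. -/
def F5b : Prop := F.Ga F0 C t → ∀ n : ℕ, ∃ B, ∀ Z, C.Lin Z → ∀ e0 e1 e2 : C.J → ℝ,
  (∀ j, 0 ≤ e0 j ∧ 0 ≤ e1 j ∧ 0 ≤ e2 j) → C.TabG n e0 (F.df F0 C) Z → C.TabA n e0 F.al →
  C.TabG n e1 (F.df F0 C) univ → C.TabV n (1 / 100) e2 (F.df F0 C).V univ →
  C.TabG n (fun j => B * (e0 j + e2 j + (e1 j + C.R0 j ^ (-1 / 10 : ℝ)) * e1 j)) (F.df F0 C) univ

/-- The sources of the words. -/
def F6 : Prop := F.Ga F0 C t → K.Is → ∀ n : ℕ, ∃ B, ∀ k, ∃ B', ∀ I : List (Fin 5), I.length = n →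
  ∃ SA SB, F.Sys C (Ch.la I) (fun i => C.wd I ((C.T)^[k] ((F.df F0 C).V i))) SA SB ∧
  ∀ m m', C.TabG m K.ep (F.df F0 C) univ → C.TabA (n + k) K.ep F.al →
  C.TabV m' 0 K.ep (F.df F0 C).V univ →
  ∀ l, (l ∈ Icc (0 : ℝ) (1 / 100) ∧ n + k ≤ m) ∨ (l = 1 / 100 ∧ n + k ≤ m + m') →
  ∀ x : C.Pt, K.de x.1 ≤ 1 → C.val x (C.dS K.p l SA SB) ≤
    B * C.val x (C.dn (C.Dw K.p l) (C.sw n (Ch.om I + 1)) ((F.df F0 C).map (C.T)^[k]).V +
      C.dn (C.Dw K.p l) (C.sl n) ((F.df F0 C).map (C.T)^[k]).V) +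
    B * K.de x.1 ^ 2 * C.val x (C.dn (C.Dw K.p l) (C.sl (n + 1)) ((F.df F0 C).map (C.T)^[k]).V +
      C.dG K.p l (C.sl (n + 1)) ((F.df F0 C).map (C.T)^[k])) +
    B' * (K.ep x.1 * K.pm x.1) ^ 2 * C.val x (C.dn (C.Dw K.p l) (C.sl (n + k + 1)) (F.df F0 C).V +
      C.dG K.p l (C.sl (n + k + 1)) (F.df F0 C))

/-- The sources of the words for any system (all gauge quantities are in the table). -/
def F6g : Prop := F.Ga F0 C t → K.Is → ∀ n : ℕ, ∃ B, ∀ V SA SB, F.Sys C 0 V SA SB →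
  ∀ I : List (Fin 5), I.length = n →
  ∃ SA' SB', F.Sys C (Ch.la I) (fun i => C.wd I (V i)) SA' SB' ∧
  (C.TabG n K.ep (F.df F0 C) univ → C.TabA n K.ep F.al → ∀ l ∈ Icc (0 : ℝ) (1 / 100),
  ∀ x : C.Pt, K.de x.1 ≤ 1 → C.val x (C.dS K.p l SA' SB') ≤
    B * C.val x (C.dn (C.OA K.p l) (C.sl (n + 1)) SA + C.dn (C.OB K.p l) (C.sl (n + 1)) SB) +
    B * C.val x (C.dn (C.Dw K.p l) (C.sw n (Ch.om I + 1)) V + C.dn (C.Dw K.p l) (C.sl n) V) +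
    B * K.de x.1 ^ 2 * C.val x (C.dn (C.Dw K.p l) (C.sl (n + 1)) V))

end Vale.Agent.P354XZ
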