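import Vale.Agent.P354XZ.Tb2

/-!
The jets of the admissible sources, and the sources of the whole family.
-/

open Set

noncomputable section

namespace Vale.Agent.P354XZ

open Vale.Agent.P354YF Finset
open Vale.Agent.P354XG (D_zero)

variable {A : Type} [CommRing A] [Algebra ℂ A] {C : Ch A} {K : Cut C} (h : C.Is) (k : K.Is)
  (x : C.Pt) {l : ℝ} {U : Un A} {Vw : List Lt → Fin 5 → A}

theorem dG_eq (p : Fam C.J) (o : A → A) (U : Un A) :
    C.dG p l o U = ∑ g, C.fn (Zf C p l g) * o (U.at g) := by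
  simp only [Ch.dG, Ch.dn, Fintype.sum_sum_type, Zf, Un.at, Sum.elim_inl, Sum.elim_inr, add_assoc]

omit [CommRing A] [Algebra ℂ A] in
theorem map_at (φ : A → A) (g : Gi) : (U.map φ).at g = φ (U.at g) := by
  rcases g with g | g | g <;> rfl

/-- The total density. -/
def Lm (K : Cut C) (U : Un A) (Vw : List Lt → Fin 5 → A) (l : ℝ) (n k s : ℕ) (x : C.Pt) : ℝ :=
  C.val x (C.dWl (C.Dw K.p l) (C.sl (n + 1)) Vw k s + C.dG K.p l (C.sl (n + 1)) (U.map (C.T)^[k]))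

include h k

theorem D_nn (j : Fin 5) : 0 ≤ C.at' (C.Dw K.p l j) x := (Dw_pos h k.pos j _ _ (rr_pos h x)).le

theorem Z_nn (g : Gi) : 0 ≤ C.at' (Zf C K.p l g) x := by
  rw [at_Z]
  exact mul_nonneg (zero_le_one.trans (pz_one (k.pl x h).1 g)) (Mx_pos h _).le

theorem O_nn (e : Bool) (i : Fin 4) : 0 ≤ C.at' (Of C K.p l e i) x := by
  rw [Of_eq]
  exact div_nonneg (sq_nonneg (C.at' (C.mon 2 0 0 * C.w K.p l i) x)) (D_nn h k x _)

theorem Lm_eq (n t s : ℕ) : Lm K U Vw l n t s x =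
    ∑ s' ∈ range (s + 1), ∑ w : Fin s' → Lt, ∑ j, C.at' (C.Dw K.p l j) x *
      C.val x (C.sl (n + 1) ((C.T)^[t] (Vw (List.ofFn w) j))) +
    ∑ g, C.at' (Zf C K.p l g) x * C.val x (C.sl (n + 1) ((C.T)^[t] (U.at g))) := by
  simp only [Lm, dG_eq, Ch.dWl, Ch.dW, Ch.dn, Ch.Vs, vl_add, vl_sum, map_at,
    vl_fn_mul h (smF_Dw h k.sm.2.2 _), vl_fn_mul h (smF_Z h k.sm.2.2 _)]

theorem Lm_V (n t : ℕ) {s : ℕ} (w : List Lt) (hw : w.length ≤ s) (j : Fin 5) :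
    C.at' (C.Dw K.p l j) x * C.jet n ((C.T)^[t] (Vw w j)) x ^ 2 ≤ 10 ^ n * Lm K U Vw l n t s x := by
  have p := fun j f => mul_nonneg (D_nn h k x (l := l) j) (vl_sl0 h (x := x) (n + 1) f)
  refine (mul_le_mul_of_nonneg_left (jet_sq_le h n _) (D_nn h k x j)).trans ?_
  rw [mul_left_comm, Lm_eq h k]
  refine mul_le_mul_of_nonneg_left (le_add_of_le_of_nonneg ?_ (sum_nonneg fun g _ =>
    mul_nonneg (Z_nn h k x g) (vl_sl0 h ..))) (by positivity)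
  refine le_trans ?_ (single_le_sum (fun s' _ => sum_nonneg fun w _ => sum_nonneg fun j _ => p j _)
    (mem_range.2 (Nat.lt_succ_of_le hw)))
  refine le_trans ?_ (single_le_sum (fun w _ => sum_nonneg fun j _ => p j _) (mem_univ w.get))
  rw [List.ofFn_get]
  exact single_le_sum (fun j _ => p j ((C.T)^[t] (Vw w j))) (mem_univ j)

theorem Lm_G (n t s : ℕ) (g : Gi) :
    C.at' (Zf C K.p l g) x * C.jet n ((C.T)^[t] (U.at g)) x ^ 2 ≤ 10 ^ n * Lm K U Vw l n t s x := by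
  refine (mul_le_mul_of_nonneg_left (jet_sq_le h n _) (Z_nn h k x g)).trans ?_
  rw [mul_left_comm, Lm_eq h k]
  exact mul_le_mul_of_nonneg_left (le_add_of_nonneg_of_le (sum_nonneg fun _ _ =>
    sum_nonneg fun _ _ => sum_nonneg fun j _ => mul_nonneg (D_nn h k x j) (vl_sl0 h ..))
    (single_le_sum (fun g _ => mul_nonneg (Z_nn h k x (l := l) g)
      (vl_sl0 h (x := x) (n + 1) ((C.T)^[t] (U.at g)))) (mem_univ g)))
    (by positivity)

theorem Lm_nn (n t s : ℕ) : 0 ≤ Lm K U Vw l n t s x :=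
  nonneg_of_mul_nonneg_right ((mul_nonneg (Z_nn h k x _) (sq_nonneg _)).trans
    (Lm_G h k x n t s (Sum.inl 0))) (by positivity) |> fun e => e

omit h k

/-- The bound for one source. -/
def Pj (K : Cut C) (U : Un A) (Vw : List Lt → Fin 5 → A) (s : ℕ) (e : Bool) (i : Fin 4) (f : A) :
    Prop :=
  ∀ n, ∃ B, 0 ≤ B ∧ ∀ t, ∃ B', 0 ≤ B' ∧ ∀ m m' N, C.TabG m K.ep U univ → C.TabW m' N K.ep Vw →
    ∀ l, Rng n t s m m' N l → ∀ x : C.Pt,
      C.at' (Of C K.p l e i) x * C.jet n ((C.T)^[t] f) x ^ 2 ≤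
        B * K.de x.1 ^ 2 * Lm K U Vw l n t s x +
          B' * (K.ep x.1 * K.pm x.1) ^ 2 * Lm K U Vw l (n + t) 0 s x

theorem Rng.hl {n t s m m' N : ℕ} (r : Rng n t s m m' N l) : l ∈ Icc (0 : ℝ) (1 / 100) :=
  r.1.elim (·.1) fun e => ⟨by rw [e.1]; norm_num, e.1.le⟩

theorem tab_at {m : ℕ} {e : C.J → ℝ} (a : C.TabG m e U univ) (g : Gi) :
    C.jet m (U.at g) x ≤ e x.1 * C.at' (Sf C g) x := by
  rcases g with g | g | g
  exacts [(a x trivial).1 g, (a x trivial).2.1 g, (a x trivial).2.2 g]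

variable {s : ℕ} {e : Bool} {i : Fin 4}
include h

theorem jet_cb (b : Bool) (n : ℕ) (f : A) : C.jet n (C.cb b f) x = C.jet n f x := by
  cases b
  exacts [rfl, jet_c h n f]

theorem jet_T_cb (b : Bool) (n t : ℕ) (f : A) :
    C.jet n ((C.T)^[t] (C.cb b f)) x = C.jet n ((C.T)^[t] f) x := by
  cases b
  · rfl
  · exact (congrArg (C.jet n · x) (Tk_comm (T_c h x.1) t f).symm).trans (jet_c h n _)

include k

theorem pj_lin {a : ℝ} {κ g : A} (hκ : C.Sy a κ) (b : Bool) (Y : ℝ → C.Pt → ℝ)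
    (h1 : ∀ l ∈ Icc (0 : ℝ) (1 / 100), ∀ x, C.at' (Of C K.p l e i) x * (C.rr x ^ (-a)) ^ 2 ≤
      9 * 4 ^ 9 * K.de x.1 ^ 2 * Y l x)
    (h2 : ∀ l x n t, Y l x * C.jet n ((C.T)^[t] g) x ^ 2 ≤ 10 ^ n * Lm K U Vw l n t s x) :
    Pj K U Vw s e i (κ * C.cb b g) := fun n => by
  obtain ⟨B, B0, hB⟩ := sy_jet h hκ n
  refine ⟨B ^ 2 * (9 * 4 ^ 9) * 10 ^ n, by positivity, fun t => ⟨0, le_rfl,
    fun m m' N _ _ l r x => ?_⟩⟩
  have e1 := pow_le_pow_left₀ (jet0 _ _) (hB ((C.T)^[t] (C.cb b g)) x) 2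
  rw [jet_T_cb h] at e1
  rw [Tk_mul hκ.1, zero_mul, zero_mul, add_zero]
  calc _ ≤ _ := mul_le_mul_of_nonneg_left e1 (O_nn h k x e i)
    _ = B ^ 2 * (C.at' (Of C K.p l e i) x * (C.rr x ^ (-a)) ^ 2 *
        C.jet n ((C.T)^[t] g) x ^ 2) := by ring
    _ ≤ B ^ 2 * (9 * 4 ^ 9 * K.de x.1 ^ 2 * Y l x * C.jet n ((C.T)^[t] g) x ^ 2) :=
      mul_le_mul_of_nonneg_left (mul_le_mul_of_nonneg_right (h1 l r.hl x) (sq_nonneg _))
        (sq_nonneg _)
    _ = B ^ 2 * (9 * 4 ^ 9) * K.de x.1 ^ 2 * (Y l x * C.jet n ((C.T)^[t] g) x ^ 2) := by ring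
    _ ≤ B ^ 2 * (9 * 4 ^ 9) * K.de x.1 ^ 2 * (10 ^ n * Lm K U Vw l n t s x) :=
      mul_le_mul_of_nonneg_left (h2 l x n t) (by positivity)
    _ = _ := by ring

/-- One product of a supremum and a member of the density. -/
def Qd (K : Cut C) (U : Un A) (Vw : List Lt → Fin 5 → A) (s : ℕ) (e : Bool) (i : Fin 4) (l : ℝ)
    (n : ℕ) (x : C.Pt) (y : ℝ) : Prop :=
  C.at' (Of C K.p l e i) x * y ^ 2 ≤
    4 ^ 9 * 10 ^ n * (K.ep x.1 * K.pm x.1) ^ 2 * Lm K U Vw l n 0 s x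

theorem qd_of {n : ℕ} {u y ρ Y : ℝ} (ρ0 : 0 ≤ ρ) (Y0 : 0 ≤ Y)
    (h1 : C.at' (Of C K.p l e i) x * u ^ 2 ≤ 4 ^ 9 * K.pm x.1 * (ρ * Y)) (h2 : ρ ≤ K.ep x.1 ^ 2)
    (h3 : Y * y ^ 2 ≤ 10 ^ n * Lm K U Vw l n 0 s x) : Qd K U Vw s e i l n x (u * y) := by
  have p := (k.pl x h).1.trans (k.pl x h).2.1
  have L := Lm_nn h k x (U := U) (Vw := Vw) (l := l) n 0 s
  calc _ = C.at' (Of C K.p l e i) x * u ^ 2 * y ^ 2 := by ring
    _ ≤ 4 ^ 9 * K.pm x.1 * (ρ * Y) * y ^ 2 := mul_le_mul_of_nonneg_right h1 (sq_nonneg _)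
    _ = 4 ^ 9 * (K.pm x.1 * ρ * (Y * y ^ 2)) := by ring
    _ ≤ 4 ^ 9 * (K.pm x.1 ^ 2 * K.ep x.1 ^ 2 * (10 ^ n * Lm K U Vw l n 0 s x)) :=
      mul_le_mul_of_nonneg_left (mul_le_mul (mul_le_mul (by nlinarith) h2 ρ0 (sq_nonneg _)) h3
        (by positivity) (by positivity)) (by norm_num)
    _ = _ := by ring

theorem qd_V {n a : ℕ} {y Y : ℝ} {V : Fin 5 → A} {j : Fin 5} (Y0 : 0 ≤ Y)
    (h1 : C.at' (Of C K.p l e i) x ≤ 4 ^ 9 * K.pm x.1 * (C.rr x * C.at' (C.Dt 0 j) x * Y))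
    (h2 : C.TabV a 0 K.ep V univ) (h3 : Y * y ^ 2 ≤ 10 ^ n * Lm K U Vw l n 0 s x) :
    Qd K U Vw s e i l n x (C.jet a (V j) x * y) := by
  have d0 : 0 < C.at' (C.Dt 0 j) x := mul_pos (at_pos h 0 0 (-3 / 10) x)
    (Dw_pos h (p := 1) (fun _ _ _ _ => one_pos) j _ _ (rr_pos h x))
  refine qd_of h k x (mul_nonneg (mul_nonneg (rr_pos h x).le d0.le) (sq_nonneg _)) Y0 ?_
    (h2 x trivial j) h3
  exact (mul_le_mul_of_nonneg_right h1 (sq_nonneg _)).trans (le_of_eq (by ring))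

theorem pj_quad {f : A} (H : ∀ n t m m' N, C.TabG m K.ep U univ → C.TabW m' N K.ep Vw → ∀ l,
    Rng n t s m m' N l → ∀ x : C.Pt, ∃ y z, C.jet (n + t) f x ≤ 2 ^ (n + t) * (y + z) ∧
      Qd K U Vw s e i l (n + t) x y ∧ Qd K U Vw s e i l (n + t) x z) : Pj K U Vw s e i f :=
  fun n => ⟨0, le_rfl, fun t => ⟨(2 ^ (n + t)) ^ 2 * 4 * (4 ^ 9 * 10 ^ (n + t)), by positivity,
    fun m m' N a b l r x => by
      obtain ⟨y, z, e1, e2, e3⟩ := H n t m m' N a b l r x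
      have e4 := pow_le_pow_left₀ (jet0 _ _) ((jet_Tk t n f).trans e1) 2
      have e5 : (y + z) ^ 2 ≤ 2 * (y ^ 2 + z ^ 2) := by nlinarith [sq_nonneg (y - z)]
      rw [mul_pow] at e4
      have e6 := mul_le_mul_of_nonneg_left (e4.trans (mul_le_mul_of_nonneg_left e5 (sq_nonneg _)))
        (O_nn h k x (l := l) e i)
      have e7 := mul_le_mul_of_nonneg_left (add_le_add e2 e3)
        (show (0 : ℝ) ≤ (2 ^ (n + t)) ^ 2 * 2 by positivity)
      linarith⟩⟩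

theorem qd_zero (n : ℕ) : Qd K U Vw s e i l n x 0 := by
  have L := Lm_nn h k x (U := U) (Vw := Vw) (l := l) n 0 s
  rw [Qd, pow_two, mul_zero, mul_zero]; positivity

theorem pj_gv (b : Bool) (g : Gi) (w : List Lt) (j : Fin 5) (hw : w.length ≤ s)
    (o : okGV e i (cls g) j) : Pj K U Vw s e i (C.cb b (U.at g) * Vw w j) := by
  refine pj_quad h k fun n t m m' N a c l r x => ?_
  have q : ∀ m0 ≤ m, Qd K U Vw s e i l (n + t) x
      (C.jet m0 (C.cb b (U.at g)) x * C.jet (n + t) (Vw w j) x) := fun m0 e0 => by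
    refine qd_of h k x (sq_nonneg _) (D_nn h k x j) ?_ le_rfl (Lm_V h k x _ 0 w hw j)
    have e1 := pow_le_pow_left₀ (jet0 _ _) ((jet_mono e0 _).trans (tab_at x a g)) 2
    rw [jet_cb h]
    refine (mul_le_mul_of_nonneg_left e1 (O_nn h k x e i)).trans ?_
    have := mul_le_mul_of_nonneg_left (t_gv h k x r.hl e i g j o) (sq_nonneg (K.ep x.1))
    rw [mul_pow]
    linarith
  by_cases c1 : n + t ≤ m
  · exact ⟨_, 0, by rw [add_zero]; exact jet_mul_le _ _ _, q _ c1, qd_zero h k x _⟩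
  · obtain ⟨r1, r2, r3, r4, r5⟩ := r
    obtain ⟨rfl, r6⟩ := r1.resolve_left fun e => c1 e.2
    refine ⟨_, _, jet_mul_split (m := m) (m' := n + t - m) (by omega) _ _, q m le_rfl, ?_⟩
    rw [mul_comm, jet_cb h]
    exact qd_V h k x (Z_nn h k x g) (t_gv' h k x e i g j o) (c _ w (by omega) (by omega))
      (Lm_G h k x _ 0 s g)

theorem pj_vv (b : Bool) (w1 w2 : List Lt) (k1 k2 : Fin 5) (hw : w1.length + w2.length < s)
    (o : okVV e i k1 k2) : Pj K U Vw s e i (C.cb b (Vw w1 k1) * Vw w2 k2) := by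
  refine pj_quad h k fun n t m m' N _ c l r x => ?_
  obtain ⟨t1, t2⟩ := t_vv h k x r.hl e i k1 k2 o
  have q1 : ∀ a, a ≤ m' → a + w1.length ≤ N → Qd K U Vw s e i l (n + t) x
      (C.jet a (C.cb b (Vw w1 k1)) x * C.jet (n + t) (Vw w2 k2) x) := fun a a1 a2 => by
    rw [jet_cb h]
    exact qd_V h k x (D_nn h k x _) t1 (c a w1 a1 a2) (Lm_V h k x _ 0 w2 (by omega) k2)
  have q2 : ∀ a, a ≤ m' → a + w2.length ≤ N → Qd K U Vw s e i l (n + t) x
      (C.jet (n + t) (C.cb b (Vw w1 k1)) x * C.jet a (Vw w2 k2) x) := fun a a1 a2 => by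
    rw [jet_cb h, mul_comm]
    exact qd_V h k x (D_nn h k x _) t2 (c a w2 a1 a2) (Lm_V h k x _ 0 w1 (by omega) k1)
  obtain ⟨-, r2, r3, r4, r5⟩ := r
  by_cases c1 : n + t ≤ m' ∧ n + t + w1.length ≤ N
  · exact ⟨_, 0, by rw [add_zero]; exact jet_mul_le _ _ _, q1 _ c1.1 c1.2, qd_zero h k x _⟩
  by_cases c2 : n + t ≤ m' ∧ n + t + w2.length ≤ N
  · exact ⟨_, 0, by rw [add_zero]; exact jet_mul_le _ _ _, q2 _ c2.1 c2.2, qd_zero h k x _⟩
  exact ⟨_, _, jet_mul_split (m := min m' (N - w1.length)) (m' := min m' (N - w2.length))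
    (by omega) _ _, q1 _ (by omega) (by omega), q2 _ (by omega) (by omega)⟩

theorem pj_src {f : A} (a : C.Src U Vw s e i f) : Pj K U Vw s e i f := by
  induction a with
  | zero =>
    refine fun n => ⟨0, le_rfl, fun t => ⟨0, le_rfl, fun _ _ _ _ _ l _ x => ?_⟩⟩
    rw [Function.iterate_fixed (D_zero _), jet_null]; simp
  | @add f g _ _ a b =>
    intro n
    obtain ⟨B1, p1, a⟩ := a n
    obtain ⟨B2, p2, b⟩ := b n
    refine ⟨2 * (B1 + B2), by positivity, fun t => ?_⟩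
    obtain ⟨B3, p3, a⟩ := a t
    obtain ⟨B4, p4, b⟩ := b t
    refine ⟨2 * (B3 + B4), by positivity, fun m m' N c d l r x => ?_⟩
    have e1 := pow_le_pow_left₀ (jet0 _ _) (jet_add (x := x) n ((C.T)^[t] f) ((C.T)^[t] g)) 2
    have e2 := mul_le_mul_of_nonneg_left (e1.trans (add_sq_le (a := C.jet n ((C.T)^[t] f) x)))
      (O_nn h k x (l := l) e i)
    rw [Tk_add]
    linarith [a m m' N c d l r x, b m m' N c d l r x]
  | @smul z f _ a =>
    intro n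
    obtain ⟨B1, p1, a⟩ := a n
    refine ⟨‖(z : ℂ)‖ ^ 2 * B1, by positivity, fun t => ?_⟩
    obtain ⟨B3, p3, a⟩ := a t
    refine ⟨‖(z : ℂ)‖ ^ 2 * B3, by positivity, fun m m' N c d l r x => ?_⟩
    have z0 : ∀ a, C.X a (z : A) = 0 := fun a => Derivation.map_intCast _ z
    have := mul_le_mul_of_nonneg_left (a m m' N c d l r x) (sq_nonneg ‖(z : ℂ)‖)
    rw [Tk_mul (z0 0), jet_cst z0, ← map_intCast (algebraMap ℂ A), md_alg h]
    linarith [mul_pow ‖(z : ℂ)‖ (C.jet n ((C.T)^[t] f) x) 2]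
  | kv2 w j s1 hw o =>
    exact pj_lin h k s1 false _ (fun l hl x => t_kv2 h k x hl e i j o)
      fun l x n t => Lm_V h k x n t w hw j
  | kv3 b w j s1 hw =>
    exact pj_lin h k s1 b _ (fun l hl x => t_kv3 h k x hl e i j)
      fun l x n t => Lm_V h k x n t w hw j
  | kg3 b g s1 o =>
    exact pj_lin h k s1 b _ (fun l hl x => t_kg3 h k x hl e i g o) fun l x n t => Lm_G h k x n t s g
  | kg4 b g s1 =>
    exact pj_lin h k s1 b _ (fun l hl x => t_kg4 h k x hl e i g) fun l x n t => Lm_G h k x n t s g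
  | gv b g w j hw o => exact pj_gv h k b g w j hw o
  | vv b w1 w2 k1 k2 hw o => exact pj_vv h k b w1 w2 k1 k2 hw o

omit h k

variable (C K Vw) (F F0 : NF A) (t : Fin 4 → A)

theorem src : SRC C F F0 t K Vw := fun g k s e i f a n => by
  obtain ⟨B, -, a⟩ := pj_src g.ch k a n
  refine ⟨B, fun t => ?_⟩
  obtain ⟨B', -, a⟩ := a t
  refine ⟨B', fun m m' N c d l r x _ => le_trans ?_ (a m m' N c d l r x)⟩
  exact (vl_fn_mul g.ch (smF_O g.ch k.sm.2.2 k.pos e i) _).le.trans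
    (mul_le_mul_of_nonneg_left (vl_sl_le g.ch n _) (O_nn g.ch k x e i))

theorem f7 (b : BS C F F0 Vw) (c : COM C F F0 t K Vw) : F7 C F F0 t K Vw := fun g k s n => by
  obtain ⟨am, SA, SB, sy, a⟩ := b s
  obtain ⟨B, c⟩ := c g k s am n
  choose B1 h1 using fun w i => src C K Vw F F0 t g k s true i _ (a w i).1 n
  choose B2 h2 using fun w i => src C K Vw F F0 t g k s false i _ (a w i).2 n
  refine ⟨|B| + |B| * ∑ w, ∑ i, (|B1 w i| + |B2 w i|), fun t => ?_⟩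
  obtain ⟨B', c⟩ := c t
  choose B3 h1 using fun w i => h1 w i t
  choose B4 h2 using fun w i => h2 w i t
  refine ⟨B' + |B| * ∑ w, ∑ i, (B3 w i + B4 w i), fun I hI => ?_⟩
  obtain ⟨SA', SB', sy', c⟩ := c SA SB sy I hI
  refine ⟨am, SA', SB', sy', fun m m' N t1 t2 t3 l r x d => (c m m' N t1 t2 t3 l r x d).trans ?_⟩
  have h := g.ch
  have L0 := mul_nonneg (sq_nonneg (K.de x.1)) (Lm_nn h k x (U := F.df F0 C) (Vw := Vw) (l := l) n t s)
  set L1 := K.de x.1 ^ 2 * Lm K (F.df F0 C) Vw l n t s x with hL1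
  set L2 := (K.ep x.1 * K.pm x.1) ^ 2 * Lm K (F.df F0 C) Vw l (n + t) 0 s x with hL2
  have sm : ∀ b b', sml C F F0 K Vw b b' l n t s x = b * L1 + b' * L2 := fun b b' => by
    rw [hL1, hL2, ← mul_assoc, ← mul_assoc]; rfl
  have S0 : 0 ≤ ∑ w, ∑ i, (|B1 w i| + |B2 w i|) := by positivity
  have X0 : 0 ≤ C.val x (∑ w, (C.dn (C.OA K.p l) (C.sl (n + 1)) (fun i => (C.T)^[t] (SA w i)) +
      C.dn (C.OB K.p l) (C.sl (n + 1)) fun i => (C.T)^[t] (SB w i))) := by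
    simp only [Ch.dn, vl_sum, vl_add]
    refine sum_nonneg fun w _ => add_nonneg (sum_nonneg fun i _ => ?_) (sum_nonneg fun i _ => ?_)
    · exact (mul_nonneg (O_nn h k x true i) (vl_sl0 h ..)).trans
        (vl_fn_mul h (smF_O h k.sm.2.2 k.pos true i) _).ge
    · exact (mul_nonneg (O_nn h k x false i) (vl_sl0 h ..)).trans
        (vl_fn_mul h (smF_O h k.sm.2.2 k.pos false i) _).ge
  have X1 : C.val x (∑ w, (C.dn (C.OA K.p l) (C.sl (n + 1)) (fun i => (C.T)^[t] (SA w i)) +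
      C.dn (C.OB K.p l) (C.sl (n + 1)) fun i => (C.T)^[t] (SB w i))) ≤
      (∑ w, ∑ i, (|B1 w i| + |B2 w i|)) * L1 + (∑ w, ∑ i, (B3 w i + B4 w i)) * L2 := by
    simp only [Ch.dn, vl_sum, vl_add, sum_mul, ← sum_add_distrib]
    refine sum_le_sum fun w _ => sum_le_sum fun i _ => ?_
    have e1 := h1 w i m m' N t1 t3 l r x d
    have e2 := h2 w i m m' N t1 t3 l r x d
    rw [sm] at e1 e2
    have e3 := mul_le_mul_of_nonneg_right (le_abs_self (B1 w i)) L0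
    have e4 := mul_le_mul_of_nonneg_right (le_abs_self (B2 w i)) L0
    simp only [if_true, Bool.false_eq_true, if_false] at e1 e2
    linarith
  have Y0 : 0 ≤ C.val x (C.dW (C.Dw K.p l) (C.sw n (Ch.om I + 1)) Vw t s +
      C.dW (C.Dw K.p l) (C.sl n) Vw t s) := by
    simp only [Ch.dW, Ch.dn, vl_sum, vl_add, vl_fn_mul h (smF_Dw h k.sm.2.2 _)]
    exact add_nonneg (sum_nonneg fun _ _ => sum_nonneg fun j _ =>
      mul_nonneg (D_nn h k x j) (vl_sw0 h ..)) (sum_nonneg fun _ _ => sum_nonneg fun j _ =>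
      mul_nonneg (D_nn h k x j) (vl_sl0 h ..))
  have e1 := (mul_le_mul_of_nonneg_right (le_abs_self B) X0).trans
    (mul_le_mul_of_nonneg_left X1 (abs_nonneg B))
  have e2 := mul_le_mul_of_nonneg_right (le_abs_self B) Y0
  have e3 := mul_le_mul_of_nonneg_right (le_abs_self B) L0
  have e4 := mul_nonneg (mul_nonneg (abs_nonneg B) S0) Y0
  rw [sm, sm]
  linarith

end Vale.Agent.P354XZ
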