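import Vale.Agent.P354XI.Defs

/-!
The far zone: chart, letters, jets, weights.
One ring A carries a family (index J) of solutions, so that all constants are uniform.
-/

open scoped ContDiff
open Set

noncomputable section

namespace Vale.Agent.P354XZ

open Vale.Agent.P354XG (Der)
open Vale.Agent.P354XI (Ibp)

/-- Families of functions of (u, r). -/
abbrev Fam (J : Type) : Type := J → ℝ → ℝ → ℝ

def SmF {J : Type} (φ : Fam J) : Prop :=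
  ∀ j, ContDiffOn ℝ ∞ (fun p : ℝ × ℝ => φ j p.1 p.2) {p | 0 < p.2}

/-- The chart (u, r, xi). an = (P, Q, V = H - Hb), S = H + Hb, N = |xi|^2. -/
structure Ch (A : Type) [CommRing A] [Algebra ℂ A] where
  J : Type
  B : J → Ibp A
  c : A →+* A
  T : Der A
  R : Der A
  S : Der A
  Om : Fin 3 → Der A
  an : Fin 3 → Der A
  mu : Fin 3 → Fin 3 → A
  eo : Fin 3 → Fin 3 → Fin 3 → ℝ
  u : A
  r : A
  ri : A
  N : Aˣ
  fn : Fam J → A
  R0 : J → ℝ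
  U0 : J → ℝ
  Dom : J → Set (ℝ × ℝ)

variable {A : Type} [CommRing A] [Algebra ℂ A]

namespace Ch
variable (C : Ch A)

/-- Points, values. -/
def Pt : Type := Σ j, (C.B j).Pt
def md (x : C.Pt) (f : A) : ℝ := (C.B x.1).md x.2 f
def val (x : C.Pt) (f : A) : ℝ := (C.B x.1).val x.2 f
def uu (x : C.Pt) : ℝ := C.val x C.u
def rr (x : C.Pt) : ℝ := C.val x C.r
def at' (φ : Fam C.J) (x : C.Pt) : ℝ := φ x.1 (C.uu x) (C.rr x)

/-- The basis fields and the letters. -/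
def D : Fin 5 → Der A := ![C.T, C.R, C.an 0, C.an 1, C.an 2]
def X : Fin 5 → Der A := ![C.T, C.r • C.R, C.Om 0, C.Om 1, C.Om 2]

/-- The tangent field with the components a. -/
def vf (a : Fin 5 → A) : Der A := ∑ i, a i • C.D i

/-- The components of the conjugate field. -/
def cj (a : Fin 5 → A) : Fin 5 → A := ![C.c (a 0), C.c (a 1), C.c (a 3), C.c (a 2), -C.c (a 4)]

/-- Words (the first letter acts first), the rank of a word, the number of letters r R. -/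
def wd : List (Fin 5) → A → A
  | [], f => f
  | a :: I, f => wd I (C.X a f)
def om1 : Fin 5 → ℕ := ![2, 0, 1, 1, 1]
def om (I : List (Fin 5)) : ℕ := (I.map om1).sum
def la (I : List (Fin 5)) : ℕ := I.count 1

/-- The sum of the squares over the words of length n and rank at least k; over all words of
length less than n; the sums of the moduli. -/
def sw : ℕ → ℕ → A → A
  | 0, k, f => if k = 0 then f * C.c f else 0
  | n + 1, k, f => ∑ a, sw n (k - om1 a) (C.X a f)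
def sl (n : ℕ) (f : A) : A := ∑ i ∈ Finset.range n, C.sw i 0 f
def je : ℕ → A → C.Pt → ℝ
  | 0, f, x => C.md x f
  | n + 1, f, x => ∑ a, je n (C.X a f) x
def jet (n : ℕ) (f : A) (x : C.Pt) : ℝ := ∑ i ∈ Finset.range (n + 1), C.je i f x

structure Is : Prop where
  ibp : ∀ j, (C.B j).Is
  c_eq : ∀ j, (C.B j).c = C.c
  skT : ∀ j, (C.B j).Skew C.T
  skR : ∀ j, (C.B j).Skew C.R
  skO : ∀ j i, (C.B j).Skew (C.Om i)
  dva : ∀ j a, (C.B j).Dv (C.an a) 0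
  c_P : ∀ f, C.c (C.an 0 f) = C.an 1 (C.c f)
  c_V : ∀ f, C.c (C.an 2 f) = -C.an 2 (C.c f)
  c_S : ∀ f, C.c (C.S f) = C.S (C.c f)
  T_D : ∀ a f, C.T (C.D a f) = C.D a (C.T f)
  R_D : ∀ a f, C.R (C.D a f) = C.D a (C.R f)
  O_D : ∀ i a f, C.Om i (C.D a f) = C.D a (C.Om i f)
  S_D : ∀ a f, C.S (C.D a f) = C.D a (C.S f)
  S_O : ∀ i f, C.S (C.Om i f) = C.Om i (C.S f)
  P_Q : ∀ f, C.an 0 (C.an 1 f) = C.an 1 (C.an 0 f) + C.an 2 f
  V_P : ∀ f, C.an 2 (C.an 0 f) = C.an 0 (C.an 2 f) - 2 * C.an 0 f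
  V_Q : ∀ f, C.an 2 (C.an 1 f) = C.an 1 (C.an 2 f) + 2 * C.an 1 f
  an_eq : ∀ a f, C.an a f = ∑ i, C.mu a i * C.Om i f
  T_mu : ∀ a i, C.T (C.mu a i) = 0
  R_mu : ∀ a i, C.R (C.mu a i) = 0
  O_mu : ∀ k a i, C.Om k (C.mu a i) = ∑ l, Ibp.rl A (C.eo k i l) * C.mu a l
  mu_le : ∀ a i x, C.md x (C.mu a i) ≤ 2
  D_u : ∀ a, C.D a C.u = if a = 0 then 1 else 0
  D_r : ∀ a, C.D a C.r = if a = 1 then 1 else 0
  O_r : ∀ i, C.Om i C.r = 0
  S_r : C.S C.r = 0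
  c_u : C.c C.u = C.u
  c_r : C.c C.r = C.r
  hr : C.r * C.ri = 1
  D_N : ∀ a, C.D a C.N = 0
  O_N : ∀ i, C.Om i C.N = 0
  S_N : C.S C.N = 2 * C.N
  c_N : C.c C.N = C.N
  N_le : ∀ x, 1 / 2 ≤ C.val x C.N ∧ C.val x C.N ≤ 3 / 2
  indep : ∀ a s, (∀ f, C.vf a f + s * C.S f = 0) → a = 0 ∧ s = 0
  fn_val : ∀ φ, SmF φ → ∀ x : C.Pt, (C.B x.1).ev x.2 (C.fn φ) = (C.at' φ x : ℝ)
  fn_T : ∀ φ, SmF φ → C.T (C.fn φ) = C.fn fun j u r => deriv (fun u => φ j u r) u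
  fn_R : ∀ φ, SmF φ → C.R (C.fn φ) = C.fn fun j u r => deriv (φ j u) r
  fn_an : ∀ φ, SmF φ → ∀ a, C.an a (C.fn φ) = 0
  fn_c : ∀ φ, SmF φ → C.c (C.fn φ) = C.fn φ
  dom : ∀ x : C.Pt, (C.uu x, C.rr x) ∈ C.Dom x.1
  one_le : ∀ j, 1 ≤ C.R0 j ∧ C.R0 j ≤ C.U0 j
  rng : ∀ j, ∀ p ∈ C.Dom j, C.R0 j ≤ p.2 ∧ -(3 / 2) * p.2 ≤ p.1

/-- Comparison along the lines of R, starting from the set Z. -/
def Lin (Z : Set C.Pt) : Prop :=
  ∀ (j : C.J) (f : A) (φ : Fam C.J), SmF φ →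
    (∀ x ∈ Z, x.1 = j → C.md x f ≤ C.at' φ x) →
    (∀ x : C.Pt, x.1 = j → C.md x (C.R f) ≤ deriv (φ j (C.uu x)) (C.rr x)) →
    ∀ x : C.Pt, x.1 = j → C.md x f ≤ C.at' φ x

/-! ### Weights -/

def ut (j : C.J) (u : ℝ) : ℝ := √(u ^ 2 + C.U0 j ^ 2)
def vv (j : C.J) (u r : ℝ) : ℝ := 2 * r + (u + C.ut j u) / 2

/-- The monomial r^a v^b ut^e. -/
def mon (a b e : ℝ) : Fam C.J := fun j u r => r ^ a * C.vv j u r ^ b * C.ut j u ^ e

/-- The weight of the pair i (d0 = 1/20, d = 3/20, P = 59/20); l is the loss (0 or 1/100),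
p is the bending factor of the first pair. -/
def w (p : Fam C.J) (l : ℝ) : Fin 4 → Fam C.J :=
  ![p * C.mon (3 / 20) (14 / 5 - l) 0, C.mon (3 / 20) (14 / 5 - l) 0,
    C.mon (3 / 20) (17 / 10 - l) (11 / 10), C.mon 0 (-l) (14 / 5)]

/-- The weights of the components (bulk, flux density, with the factor r^2), and in the layer. -/
def Db (p : Fam C.J) (l : ℝ) : Fin 5 → Fam C.J :=
  ![C.mon 1 0 0 * C.w p l 0, C.mon 1 0 0 * C.w p l 0, C.mon 1 0 0 * C.w p l 1,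
    C.mon 1 0 0 * C.w p l 2, C.mon (17 / 20) 0 0 * C.w p l 3]
def Dd (p : Fam C.J) (l : ℝ) : Fin 5 → Fam C.J :=
  ![C.mon 2 0 (-21 / 20) * C.w p l 0, C.mon 2 0 (-21 / 20) * C.w p l 1,
    C.mon 2 0 (-21 / 20) * C.w p l 2, C.mon 2 0 (-21 / 20) * C.w p l 3, 0]
def Dw (p : Fam C.J) (l : ℝ) (i : Fin 5) : Fam C.J := C.Db p l i + C.Dd p l i
def DL (p : Fam C.J) (l : ℝ) (i : Fin 5) : Fam C.J :=
  C.mon (if (i : ℕ) = 4 then 3 / 20 else 0) 0 0 * C.Db p l i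

/-- The dual weights of the sources. -/
def OA (p : Fam C.J) (l : ℝ) (i : Fin 4) : Fam C.J :=
  (C.mon 2 0 0 * C.w p l i) ^ 2 / C.Dw p l i.castSucc
def OB (p : Fam C.J) (l : ℝ) (i : Fin 4) : Fam C.J :=
  (C.mon 2 0 0 * C.w p l i) ^ 2 / C.Dw p l i.succ

/-- The weights of the three classes of gauge quantities, and the bounds of their suprema. -/
def Zb (l : ℝ) : Fam C.J := C.mon (-101 / 100) 0 (14 / 5 - l)
def Zg (l : ℝ) : Fam C.J := C.mon (-17 / 20) (46 / 25) (24 / 25 - l)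
def Zh (p : Fam C.J) (l : ℝ) : Fin 2 → Fam C.J :=
  ![p * C.mon (-17 / 20) (14 / 5 - l) 0, C.mon (-17 / 20) (14 / 5 - l) 0]
def Sb : Fam C.J := C.mon 0 0 (-6 / 5)
def Sg : Fam C.J := C.mon (-1) 0 (-1 / 4)
def Sh : Fam C.J := C.mon (-3 / 40) (-11 / 8) (3 / 20)

/-- The weight of the table of the components. -/
def Dt (l : ℝ) (i : Fin 5) : Fam C.J := C.mon 0 0 (-3 / 10) * C.Dw 1 l i

/-- Symbols of order -a, independent of u. -/
def Sy (a : ℝ) (f : A) : Prop :=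
  C.T f = 0 ∧ ∀ n, ∃ K, ∀ x, C.jet n f x ≤ K * C.rr x ^ (-a)

end Ch

end Vale.Agent.P354XZ
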