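import Vale.Agent.P354XZ.Props2
import Vale.Agent.P354YF.Sy

/-!
The table of the weights: monomials with integer exponents, and a decision procedure.
-/

open Set

noncomputable section

namespace Vale.Agent.P354XZ

open Vale.Agent.P354YF

/-- The exponents a / 100, b / 100 + lb l, e / 100 + le l. -/
structure Ex where
  a : ℤ
  b : ℤ
  e : ℤ
  lb : ℤ
  le : ℤ

namespace Ex
def ad (E F : Ex) : Ex := ⟨E.a + F.a, E.b + F.b, E.e + F.e, E.lb + F.lb, E.le + F.le⟩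
def ng (E : Ex) : Ex := ⟨-E.a, -E.b, -E.e, -E.lb, -E.le⟩
def ok (t : ℤ) (E : Ex) : Prop := E.a + E.b + E.lb * t ≤ 0 ∧ E.b + E.lb * t + E.e + E.le * t ≤ 0 ∧
  E.a + E.b + E.lb * t + E.e + E.le * t ≤ 0 ∧ -900 ≤ E.b + E.lb * t ∧ E.b + E.lb * t ≤ 900
instance (t : ℤ) (E : Ex) : Decidable (E.ok t) := by unfold ok; infer_instance
/-- E is dominated by F at the end point, at both end points. -/
def d1 (E F : Ex) : Prop := (E.ad F.ng).ok 1
def d2 (E F : Ex) : Prop := (E.ad F.ng).ok 0 ∧ (E.ad F.ng).ok 1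
instance (E F : Ex) : Decidable (E.d1 F) := by unfold d1; infer_instance
instance (E F : Ex) : Decidable (E.d2 F) := by unfold d2; infer_instance
def r (a : ℤ) : Ex := ⟨a, 0, 0, 0, 0⟩
def z (E : Ex) : Ex := ad ⟨0, 0, -30, 0, 0⟩ ⟨E.a, E.b, E.e, 0, 0⟩
end Ex

variable {A : Type} [CommRing A] [Algebra ℂ A] {C : Ch A}

/-- The value of the monomial. -/
def Mx (x : C.Pt) (l : ℝ) (E : Ex) : ℝ :=
  C.at' (C.mon (E.a / 100) (E.b / 100 + E.lb * l) (E.e / 100 + E.le * l)) x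

variable (h : C.Is) {x : C.Pt} {l : ℝ}
include h

theorem Mx_pos (E : Ex) : 0 < Mx x l E := at_pos h ..

theorem Mx_ad (E F : Ex) : Mx x l (E.ad F) = Mx x l E * Mx x l F := by
  rw [Mx, Mx, Mx, at_mon_mul h]
  simp only [Ex.ad, Int.cast_add]
  ring_nf

theorem Mx_ng (E : Ex) : Mx x l E.ng * Mx x l E = 1 := by
  rw [Mx, Mx, at_mon_mul h, ← at_r0 x]
  simp only [Ex.ng, Int.cast_neg]
  ring_nf

theorem Mx_z (E : Ex) : Mx x l E.z = C.at' (C.mon 0 0 (-3 / 10)) x * Mx x 0 E := by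
  rw [Ex.z, Mx_ad h]
  simp only [Mx]
  norm_num

omit h in
theorem Mx_r (a : ℤ) : Mx x l (Ex.r a) = C.rr x ^ ((a : ℝ) / 100) := by
  simp [Mx, Ex.r, at_r]

theorem Mx_le0 (E : Ex) (e1 : (E.a : ℝ) + E.b + E.lb * (100 * l) ≤ 0)
    (e2 : (E.b : ℝ) + E.lb * (100 * l) + E.e + E.le * (100 * l) ≤ 0)
    (e3 : (E.a : ℝ) + E.b + E.lb * (100 * l) + E.e + E.le * (100 * l) ≤ 0)
    (e4 : -900 ≤ (E.b : ℝ) + E.lb * (100 * l)) (e5 : (E.b : ℝ) + E.lb * (100 * l) ≤ 900) :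
    Mx x l E ≤ 4 ^ 9 := by
  refine (at_le h (a' := 0) (b' := 0) (e' := 0) (by linarith) (by linarith) (by linarith) x).trans ?_
  rw [at_r0, mul_one, ← Real.rpow_natCast]
  exact Real.rpow_le_rpow_of_exponent_le (by norm_num) (abs_le.2 ⟨by push_cast; linarith,
    by push_cast; linarith⟩)

theorem Mx_dom {E F : Ex} (e : Mx x l (E.ad F.ng) ≤ 4 ^ 9) : Mx x l E ≤ 4 ^ 9 * Mx x l F := by
  have := mul_le_mul_of_nonneg_right e (Mx_pos h (x := x) (l := l) F).le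
  rwa [Mx_ad h, mul_assoc, Mx_ng h, mul_one] at this

theorem Mx_d1 {E F : Ex} (e : E.d1 F) : Mx x (1 / 100) E ≤ 4 ^ 9 * Mx x (1 / 100) F := by
  obtain ⟨e1, e2, e3, e4, e5⟩ := e
  rw [mul_one] at e1 e4 e5
  rw [mul_one, mul_one] at e2 e3
  refine Mx_dom h (Mx_le0 h _ ?_ ?_ ?_ ?_ ?_) <;> rw [show (100 * (1 / 100) : ℝ) = 1 by norm_num] <;>
    simp only [mul_one] <;> exact_mod_cast ‹_›

theorem Mx_d2 {E F : Ex} (e : E.d2 F) (hl : l ∈ Icc (0 : ℝ) (1 / 100)) :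
    Mx x l E ≤ 4 ^ 9 * Mx x l F := by
  obtain ⟨⟨e1, e2, e3, e4, e5⟩, f1, f2, f3, f4, f5⟩ := e
  generalize hG : E.ad F.ng = G at *
  simp only [mul_zero, add_zero, mul_one] at e1 e2 e3 e4 e5 f1 f2 f3 f4 f5
  have t0 : 0 ≤ 100 * l := by linarith [hl.1]
  have t1 : 0 ≤ 1 - 100 * l := by linarith [hl.2]
  have cv : ∀ {p q : ℤ}, p ≤ 0 → q ≤ 0 → (p : ℝ) * (1 - 100 * l) + q * (100 * l) ≤ 0 :=
    fun a b => add_nonpos (mul_nonpos_of_nonpos_of_nonneg (by exact_mod_cast a) t1)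
      (mul_nonpos_of_nonpos_of_nonneg (by exact_mod_cast b) t0)
  have g1 := cv e1 f1
  have g2 := cv e2 f2
  have g3 := cv e3 f3
  have g4 := cv (sub_nonpos.2 e4) (sub_nonpos.2 f4)
  have g5 := cv (sub_nonpos.2 e5) (sub_nonpos.2 f5)
  push_cast at g1 g2 g3 g4 g5
  refine Mx_dom h (hG ▸ Mx_le0 h _ ?_ ?_ ?_ ?_ ?_) <;> linarith

/-! ### The exponents of the weights -/

omit h

def xw : Fin 4 → Ex := ![⟨15, 280, 0, -1, 0⟩, ⟨15, 280, 0, -1, 0⟩, ⟨15, 170, 110, -1, 0⟩,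
  ⟨0, 0, 280, -1, 0⟩]
def xb : Fin 5 → Ex := ![(Ex.r 100).ad (xw 0), (Ex.r 100).ad (xw 0), (Ex.r 100).ad (xw 1),
  (Ex.r 100).ad (xw 2), (Ex.r 85).ad (xw 3)]
def xd (i : Fin 4) : Ex := Ex.ad ⟨200, 0, -105, 0, 0⟩ (xw i)
def xz : ℕ → Ex
  | 0 => ⟨-101, 0, 280, 0, -1⟩
  | 1 => ⟨-85, 184, 96, 0, -1⟩
  | _ => ⟨-85, 280, 0, -1, 0⟩
def xs : ℕ → Ex
  | 0 => ⟨0, 0, -240, 0, 0⟩
  | 1 => ⟨-200, 0, -50, 0, 0⟩
  | _ => ⟨-15, -275, 30, 0, 0⟩
def ix (e : Bool) (i : Fin 4) : Fin 5 := if e then i.castSucc else i.succ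
def xq (i : Fin 4) : Ex := ((Ex.r 200).ad (xw i)).ad ((Ex.r 200).ad (xw i))
def xo (e : Bool) (i : Fin 4) : Ex := (xq i).ad (xb (ix e i)).ng
def xo' (i : Fin 4) : Ex := (xq i).ad (xd i).ng
def xp : Ex := ⟨200, -200, 200, 0, 0⟩

/-- The powers of the bending factor. -/
def pw (p : ℝ) (i : ℕ) : ℝ := if i = 0 then p else 1
def pb (p : ℝ) (i : ℕ) : ℝ := if i ≤ 1 then p else 1

variable (p : Fam C.J)

theorem at_w (i : Fin 4) : C.at' (C.w p l i) x = pw (C.at' p x) i * Mx x l (xw i) := by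
  have e : ∀ a b e : ℤ, ∀ a' b' e' : ℝ, a' = a / 100 → b' = b / 100 - l → e' = e / 100 →
      C.at' (C.mon a' b' e') x = Mx x l ⟨a, b, e, -1, 0⟩ := by
    rintro a b e _ _ _ rfl rfl rfl
    simp [Mx, sub_eq_add_neg]
  have e1 := e 15 280 0 (3 / 20) (14 / 5 - l) 0 (by norm_num) (by norm_num) (by norm_num)
  have e2 := e 15 170 110 (3 / 20) (17 / 10 - l) (11 / 10) (by norm_num) (by norm_num) (by norm_num)
  have e3 := e 0 0 280 0 (-l) (14 / 5) (by norm_num) (by norm_num) (by norm_num)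
  fin_cases i <;> simp [Ch.w, pw, xw, at_mul, e1, e2, e3]

theorem at_rp (a : ℤ) (b : ℝ) (e : (a : ℝ) / 100 = b) : C.at' (C.mon b 0 0) x = Mx x l (Ex.r a) := by
  rw [Mx_r, at_r, e]

include h

theorem at_Db (i : Fin 5) : C.at' (C.Db p l i) x = pb (C.at' p x) i * Mx x l (xb i) := by
  have e1 := at_rp (x := x) (l := l) 100 1 (by norm_num)
  have e2 := at_rp (x := x) (l := l) 85 (17 / 20) (by norm_num)
  fin_cases i <;> simp [Ch.Db, pb, pw, xb, at_mul, at_w, Mx_ad h, e1, e2] <;> ring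

theorem at_Dd (i : Fin 4) : C.at' (C.Dd p l i.castSucc) x = pw (C.at' p x) i * Mx x l (xd i) := by
  have e1 : C.at' (C.mon 2 0 (-21 / 20)) x = Mx x l ⟨200, 0, -105, 0, 0⟩ := by
    simp only [Mx]; norm_num
  fin_cases i <;> simp [Ch.Dd, pw, xd, at_mul, at_w, Mx_ad h, e1]
  ring

/-- The weight and the supremum of a gauge quantity; the dual weights. -/
def Zf (C : Ch A) (p : Fam C.J) (l : ℝ) : Gi → Fam C.J :=
  Sum.elim (fun _ => C.Zb l) (Sum.elim (fun _ => C.Zg l) (C.Zh p l))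
def Sf (C : Ch A) : Gi → Fam C.J :=
  Sum.elim (fun _ => C.Sb) (Sum.elim (fun _ => C.Sg) fun _ => C.Sh)
def Of (C : Ch A) (p : Fam C.J) (l : ℝ) (e : Bool) (i : Fin 4) : Fam C.J :=
  if e then C.OA p l i else C.OB p l i
def pz (p : ℝ) (g : Gi) : ℝ := if g = Sum.inr (Sum.inr 0) then p else 1

omit h in
theorem at_Z (g : Gi) : C.at' (Zf C p l g) x = pz (C.at' p x) g * Mx x l (xz (cls g)) := by
  have e1 : C.at' (C.Zb l) x = Mx x l (xz 0) := by simp only [Mx, xz, Ch.Zb]; norm_num; rfl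
  have e2 : C.at' (C.Zg l) x = Mx x l (xz 1) := by simp only [Mx, xz, Ch.Zg]; norm_num; rfl
  have e3 : C.at' (C.mon (-17 / 20) (14 / 5 - l) 0) x = Mx x l (xz 2) := by
    simp only [Mx, xz]; norm_num; rfl
  rcases g with g | g | g
  · simp [Zf, pz, cls, e1]
  · simp [Zf, pz, cls, e2]
  · fin_cases g <;> simp [Zf, pz, cls, Ch.Zh, at_mul, e3]

theorem at_S (g : Gi) : C.at' (Sf C g) x ^ 2 = Mx x l (xs (cls g)) := by
  rcases g with g | g | g <;>
    simp only [Sf, cls, Sum.elim_inl, Sum.elim_inr, Ch.Sb, Ch.Sg, Ch.Sh, pow_two, at_mon_mul h, Mx, xs] <;>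
    norm_num

variable {p}

theorem smF_w (s : SmF p) (i : Fin 4) : SmF (C.w p l i) := by
  fin_cases i
  exacts [smF_mul s (smF_mon h _ _ _), smF_mon h _ _ _, smF_mon h _ _ _, smF_mon h _ _ _]

theorem smF_Dw (s : SmF p) (i : Fin 5) : SmF (C.Dw p l i) := by
  have m := fun a b e i => smF_mul (smF_mon h a b e) (smF_w h (l := l) s i)
  fin_cases i
  exacts [smF_add (m _ _ _ _) (m _ _ _ _), smF_add (m _ _ _ _) (m _ _ _ _),
    smF_add (m _ _ _ _) (m _ _ _ _), smF_add (m _ _ _ _) (m _ _ _ _),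
    smF_add (m _ _ _ _) (smF_const fun _ => 0)]

theorem smF_Z (s : SmF p) (g : Gi) : SmF (Zf C p l g) := by
  rcases g with g | g | g
  · exact smF_mon h _ _ _
  · exact smF_mon h _ _ _
  · fin_cases g
    exacts [smF_mul s (smF_mon h _ _ _), smF_mon h _ _ _]

theorem Dw_pos (s : ∀ j u r, 0 < r → 0 < p j u r) (i : Fin 5) (j : C.J) (u : ℝ) {r : ℝ}
    (hr : 0 < r) : 0 < C.Dw p l i j u r := by
  have m := fun a b e => mn_pos h a b e j u hr
  have w : ∀ i, 0 < C.w p l i j u r := fun i => by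
    fin_cases i
    exacts [mul_pos (s j u r hr) (m ..), m .., m .., m ..]
  have q := fun a b e i => mul_pos (m a b e) (w i)
  fin_cases i
  exacts [add_pos (q ..) (q ..), add_pos (q ..) (q ..), add_pos (q ..) (q ..),
    add_pos (q ..) (q ..), add_pos_of_pos_of_nonneg (q ..) le_rfl]

omit h in
theorem Of_eq (e : Bool) (i : Fin 4) :
    Of C p l e i = (C.mon 2 0 0 * C.w p l i) ^ 2 / C.Dw p l (ix e i) := by cases e <;> rfl

theorem smF_O (s : SmF p) (s' : ∀ j u r, 0 < r → 0 < p j u r) (e : Bool) (i : Fin 4) :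
    SmF (Of C p l e i) := by
  rw [Of_eq]
  exact fun j => ((smF_mul (smF_mon h 2 0 0) (smF_w h s i) j).pow 2).div (smF_Dw h s _ j)
    fun q hq => (Dw_pos h s' _ j q.1 hq).ne'

omit h in
theorem pw_one {p : ℝ} (hp : 1 ≤ p) (i : ℕ) : 1 ≤ pw p i := by unfold pw; split_ifs <;> simp [hp]
omit h in
theorem pb_one {p : ℝ} (hp : 1 ≤ p) (i : ℕ) : 1 ≤ pb p i := by unfold pb; split_ifs <;> simp [hp]
omit h in
theorem pz_one {p : ℝ} (hp : 1 ≤ p) (g : Gi) : 1 ≤ pz p g := by unfold pz; split_ifs <;> simp [hp]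
omit h in
theorem pw_le {p : ℝ} (hp : 1 ≤ p) (i : ℕ) : pw p i ≤ p := by unfold pw; split_ifs <;> simp [hp]

variable (hp : 1 ≤ C.at' p x)
include hp

theorem Db_le (i : Fin 5) : pb (C.at' p x) i * Mx x l (xb i) ≤ C.at' (C.Dw p l i) x := by
  rw [Ch.Dw, at_add, at_Db h]
  refine le_add_of_nonneg_right (Fin.lastCases le_rfl (fun i => ?_) i)
  rw [at_Dd h]
  exact mul_nonneg (zero_le_one.trans (pw_one hp _)) (Mx_pos h _).le

theorem Dd_le (i : Fin 4) :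
    pw (C.at' p x) i * Mx x l (xd i) ≤ C.at' (C.Dw p l i.castSucc) x := by
  rw [Ch.Dw, at_add, at_Dd h, at_Db h]
  exact le_add_of_nonneg_left (mul_nonneg (zero_le_one.trans (pb_one hp _)) (Mx_pos h _).le)

theorem O_le0 (e : Bool) (i : Fin 4) {E : Ex}
    (hE : pw (C.at' p x) i * Mx x l E ≤ C.at' (C.Dw p l (ix e i)) x) :
    C.at' (Of C p l e i) x ≤ pw (C.at' p x) i * Mx x l ((xq i).ad E.ng) := by
  have w0 := one_pos.trans_le (pw_one hp i)
  have m0 := Mx_pos h (x := x) (l := l)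
  have e1 : C.at' (Of C p l e i) x = (C.at' (C.mon 2 0 0) x * C.at' (C.w p l i) x) ^ 2 /
    C.at' (C.Dw p l (ix e i)) x := by rw [Of_eq]; rfl
  rw [e1, at_w, at_rp (l := l) 200 2 (by norm_num)]
  refine (div_le_div_of_nonneg_left (sq_nonneg _) (mul_pos w0 (m0 _)) hE).trans (le_of_eq ?_)
  rw [div_eq_iff (mul_pos w0 (m0 _)).ne', xq]
  simp only [Mx_ad h]
  linear_combination -(pw (C.at' p x) i * Mx x l (Ex.r 200) * Mx x l (xw i)) ^ 2 * Mx_ng h E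

theorem O_le (e : Bool) (i : Fin 4) :
    C.at' (Of C p l e i) x ≤ pw (C.at' p x) i * Mx x l (xo e i) := by
  refine O_le0 h hp e i (le_trans (mul_le_mul_of_nonneg_right ?_ (Mx_pos h _).le) (Db_le h hp _))
  fin_cases i <;> cases e <;> simp [pw, pb, ix, hp]

theorem O_le' (i : Fin 4) : C.at' (Of C p l true i) x ≤ pw (C.at' p x) i * Mx x l (xo' i) :=
  O_le0 h hp true i (Dd_le h hp i)

omit hp in
theorem p_le (e1 : C.at' p x ≤ C.at' (C.mon 2 0 0) x) (e2 : C.at' p x ≤ C.at' (C.mon 0 0 2) x) :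
    C.at' p x ≤ 9 * Mx x l xp := by
  have r := rr_pos h x
  have t := one_pos.trans_le (one_le_ut h x.1 (C.uu x))
  have v := vv_le x.1 (C.uu x) (C.rr x)
  have v0 : 0 < C.vv x.1 (C.uu x) (C.rr x) := lt_of_lt_of_le (by positivity) (two_le_vv ..)
  have e : Mx x l xp = (C.rr x * C.ut x.1 (C.uu x) / C.vv x.1 (C.uu x) (C.rr x)) ^ 2 := by
    simp only [Mx, xp, Ch.at', Ch.mon]
    norm_num [Real.rpow_neg v0.le]
    field_simp
  generalize C.at' p x = P at *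
  simp only [Ch.at', Ch.mon, Real.rpow_zero, mul_one, one_mul, Real.rpow_two] at e1 e2
  rw [e, div_pow, ← mul_div_assoc, le_div_iff₀ (by positivity)]
  generalize C.rr x = r' at *
  generalize C.ut x.1 (C.uu x) = t' at *
  generalize C.vv x.1 (C.uu x) r' = v' at *
  rcases le_total r' t' with a | a
  · have := mul_le_mul e1 (pow_le_pow_left₀ v0.le (show v' ≤ 3 * t' by linarith) 2) (sq_nonneg _)
      (sq_nonneg _)
    refine this.trans (le_of_eq ?_)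
    ring
  · have := mul_le_mul e2 (pow_le_pow_left₀ v0.le (show v' ≤ 3 * r' by linarith) 2) (sq_nonneg _)
      (sq_nonneg _)
    refine this.trans (le_of_eq ?_)
    ring

end Vale.Agent.P354XZ
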