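import Vale.Agent.P354XZ.Tb

/-!
The table of the weights: all admissible products.
-/

open Set

noncomputable section

namespace Vale.Agent.P354XZ

open Vale.Agent.P354YF

def lo (b : Bool) (j : Fin 5) : Ex := if h : b = true ∧ j.1 < 4 then xd ⟨j.1, h.2⟩ else xb j
def up (b e : Bool) (i : Fin 4) : Ex := if b = true ∧ e = true then xo' i else xo e i
def xpi (i : Fin 4) : Ex := if i = 0 then xp else Ex.r 0

instance (e : Bool) (i c j : ℕ) : Decidable (okGV e i c j) := by unfold okGV; infer_instance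
instance (e : Bool) (i c j : ℕ) : Decidable (okVV e i c j) := by unfold okVV; infer_instance

theorem d_kv2 : ∀ (e : Bool) (i : Fin 4) (j : Fin 5), j.1 ≤ i.1 + 1 →
    ((xo e i).ad (Ex.r (-400))).d2 ((Ex.r (-20)).ad (xb j)) := by decide
theorem d_kv3 : ∀ (e : Bool) (i : Fin 4) (j : Fin 5),
    ((xpi i).ad ((xo e i).ad (Ex.r (-600)))).d2 ((Ex.r (-20)).ad (xb j)) := by decide
theorem d_kg3 : ∀ (e : Bool) (i : Fin 4), ∀ c < 3,
    (c = 2 ∨ (1 ≤ i.1 ∧ 1 ≤ c) ∨ (e = true ∧ 2 ≤ i.1)) →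
    ((xo e i).ad (Ex.r (-600))).d2 ((Ex.r (-20)).ad (xz c)) := by decide
theorem d_kg4 : ∀ (e : Bool) (i : Fin 4), ∀ c < 3,
    ((xpi i).ad ((xo e i).ad (Ex.r (-800)))).d2 ((Ex.r (-20)).ad (xz c)) := by decide
theorem d_gv : ∀ (e : Bool) (i : Fin 4), ∀ c < 3, ∀ j : Fin 5, okGV e i c j →
    (∃ b b', ((up b e i).ad (xs c)).d2 (lo b' j)) ∧
    ∃ b b', (up b e i).d1 (((Ex.r 100).ad (lo b' j).z).ad (xz c)) := by decide
theorem d_vv : ∀ (e : Bool) (i : Fin 4) (k1 k2 : Fin 5), okVV e i k1 k2 →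
    (∃ b b' b2, (up b e i).d2 (((Ex.r 100).ad (lo b' k1).z).ad (lo b2 k2))) ∧
    ∃ b b' b2, (up b e i).d2 (((Ex.r 100).ad (lo b' k2).z).ad (lo b2 k1)) := by decide

theorem cls_lt (g : Gi) : cls g < 3 := by rcases g with g | g | g <;> simp [cls]

variable {A : Type} [CommRing A] [Algebra ℂ A] {C : Ch A} {K : Cut C} (h : C.Is) (k : K.Is)
  (x : C.Pt) {l : ℝ}

omit h in
include k in
theorem Cut.Is.pl (h : C.Is) : 1 ≤ C.at' K.p x ∧ C.at' K.p x ≤ K.pm x.1 ∧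
    ∀ l, C.at' K.p x ≤ 9 * Mx x l xp :=
  have := k.ple _ _ (h.dom x)
  ⟨this.1, this.2.1, fun _ => p_le h this.2.2.1 this.2.2.2⟩

include h

variable {x} in
theorem lo_le {p : Fam C.J} (hp : 1 ≤ C.at' p x) (b : Bool) (j : Fin 5) :
    Mx x l (lo b j) ≤ C.at' (C.Dw p l j) x := by
  unfold lo
  split_ifs with e
  · exact (le_mul_of_one_le_left (Mx_pos h _).le (pw_one hp _)).trans (Dd_le h hp ⟨j.1, e.2⟩)
  · exact (le_mul_of_one_le_left (Mx_pos h _).le (pb_one hp _)).trans (Db_le h hp j)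

theorem lo_z (b : Bool) (j : Fin 5) :
    Mx x l ((Ex.r 100).ad (lo b j).z) ≤ C.rr x * C.at' (C.Dt 0 j) x := by
  rw [Mx_ad h, Mx_z h, Mx_r, show ((100 : ℤ) : ℝ) / 100 = 1 by norm_num, Real.rpow_one]
  exact mul_le_mul_of_nonneg_left (mul_le_mul_of_nonneg_left (lo_le h (p := 1) le_rfl b j)
    (at_pos h ..).le) (rr_pos h x).le

include k

theorem up_le (b e : Bool) (i : Fin 4) :
    C.at' (Of C K.p l e i) x ≤ K.pm x.1 * Mx x l (up b e i) := by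
  obtain ⟨p1, p2, -⟩ := k.pl x h
  have q := fun E => mul_le_mul_of_nonneg_right ((pw_le p1 i).trans p2) (Mx_pos h (x := x) (l := l) E).le
  unfold up
  split_ifs with c
  · rw [c.2]; exact (O_le' h p1 i).trans (q _)
  · exact (O_le h p1 e i).trans (q _)

theorem pw_xp (i : Fin 4) : pw (C.at' K.p x) i ≤ 9 * Mx x l (xpi i) := by
  unfold pw xpi
  by_cases c : i = 0
  · rw [if_pos c, if_pos (show i.1 = 0 from congrArg Fin.val c)]; exact (k.pl x h).2.2 l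
  · rw [if_neg c, if_neg (show ¬i.1 = 0 from fun e => c (Fin.ext e)), Mx_r]; simp

theorem de_ge : Mx x l (Ex.r (-20)) ≤ K.de x.1 ^ 2 := by
  have p := k.pl x h
  have r0 := one_pos.trans_le (h.one_le x.1).1
  rw [Mx_r]
  refine (rr_le_R0 h (by norm_num) x).trans ?_
  rw [show ((-20 : ℤ) : ℝ) / 100 = -1 / 10 * (2 : ℕ) by norm_num, Real.rpow_mul r0.le,
    Real.rpow_natCast]
  exact pow_le_pow_left₀ (by positivity)
    (le_add_of_nonneg_left (mul_nonneg (k.ep _) (zero_le_one.trans (p.1.trans p.2.1)))) 2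

/-- The linear terms. -/
theorem t_lin (hl : l ∈ Icc (0 : ℝ) (1 / 100)) (e : Bool) (i : Fin 4) {a : ℤ} {E G : Ex} {q Y : ℝ}
    (d : (G.ad ((xo e i).ad (Ex.r a))).d2 ((Ex.r (-20)).ad E)) (q0 : 0 ≤ q)
    (hq : pw (C.at' K.p x) i ≤ 9 * Mx x l G * q) (hY : q * Mx x l E ≤ Y) :
    C.at' (Of C K.p l e i) x * C.rr x ^ ((a : ℝ) / 100) ≤ 9 * 4 ^ 9 * K.de x.1 ^ 2 * Y := by
  have m0 := fun E => (Mx_pos h (x := x) (l := l) E).le
  have e1 := Mx_d2 h (x := x) d hl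
  simp only [Mx_ad h] at e1
  rw [← Mx_r (l := l)]
  calc _ ≤ 9 * Mx x l G * q * Mx x l (xo e i) * Mx x l (Ex.r a) :=
        mul_le_mul_of_nonneg_right ((O_le h (k.pl x h).1 e i).trans
          (mul_le_mul_of_nonneg_right hq (m0 _))) (m0 _)
    _ = 9 * q * (Mx x l G * (Mx x l (xo e i) * Mx x l (Ex.r a))) := by ring
    _ ≤ 9 * q * (4 ^ 9 * (Mx x l (Ex.r (-20)) * Mx x l E)) :=
        mul_le_mul_of_nonneg_left e1 (by positivity)
    _ = 9 * 4 ^ 9 * Mx x l (Ex.r (-20)) * (q * Mx x l E) := by ring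
    _ ≤ _ := mul_le_mul (mul_le_mul_of_nonneg_left (de_ge h k x) (by norm_num)) hY
        (mul_nonneg q0 (m0 _)) (by positivity)

omit h k in
theorem d2_r0 {E G : Ex} (d : E.d2 G) : ((Ex.r 0).ad E).d2 G := by
  simpa only [Ex.d2, Ex.ad, Ex.r, zero_add] using d

omit h k in
theorem q_r0 {q y : ℝ} (q0 : 0 ≤ q) (e : y ≤ q) : y ≤ 9 * Mx x l (Ex.r 0) * q := by
  rw [Mx_r]; simp; linarith

variable (hl : l ∈ Icc (0 : ℝ) (1 / 100)) (e : Bool) (i : Fin 4)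
include hl

theorem t_kv2 (j : Fin 5) (o : j.1 ≤ i.1 + 1) : C.at' (Of C K.p l e i) x * (C.rr x ^ (-2 : ℝ)) ^ 2 ≤
    9 * 4 ^ 9 * K.de x.1 ^ 2 * C.at' (C.Dw K.p l j) x := by
  have p := (k.pl x h).1
  rw [← Real.rpow_mul_natCast (rr_pos h x).le, show (-2 * (2 : ℕ) : ℝ) = ((-400 : ℤ) : ℝ) / 100 by
    norm_num]
  refine t_lin h k x hl e i (d2_r0 (d_kv2 e i j o)) (zero_le_one.trans (pb_one p j))
    (q_r0 x (zero_le_one.trans (pb_one p j)) ?_) (Db_le h p j)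
  unfold pw
  split_ifs with c
  · rw [pb, if_pos (by omega)]
  · exact pb_one p _

theorem t_kv3 (j : Fin 5) : C.at' (Of C K.p l e i) x * (C.rr x ^ (-3 : ℝ)) ^ 2 ≤
    9 * 4 ^ 9 * K.de x.1 ^ 2 * C.at' (C.Dw K.p l j) x := by
  rw [← Real.rpow_mul_natCast (rr_pos h x).le, show (-3 * (2 : ℕ) : ℝ) = ((-600 : ℤ) : ℝ) / 100 by
    norm_num]
  exact t_lin h k x hl e i (d_kv3 e i j) zero_le_one ((pw_xp h k x i).trans (mul_one _).ge)
    ((one_mul _).le.trans (lo_le h (k.pl x h).1 false j))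

theorem t_kg3 (g : Gi) (o : okKG e i g) : C.at' (Of C K.p l e i) x * (C.rr x ^ (-3 : ℝ)) ^ 2 ≤
    9 * 4 ^ 9 * K.de x.1 ^ 2 * C.at' (Zf C K.p l g) x := by
  have p := (k.pl x h).1
  rw [← Real.rpow_mul_natCast (rr_pos h x).le, show (-3 * (2 : ℕ) : ℝ) = ((-600 : ℤ) : ℝ) / 100 by
    norm_num]
  refine t_lin h k x hl e i (d2_r0 (d_kg3 e i _ (cls_lt g) (o.imp_left fun c => by rw [c]; rfl)))
    (zero_le_one.trans (pz_one p g)) (q_r0 x (zero_le_one.trans (pz_one p g)) ?_) (at_Z _ g).ge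
  unfold pw
  split_ifs with c
  · rw [pz, if_pos (o.resolve_right (by omega))]
  · exact pz_one p _

theorem t_kg4 (g : Gi) : C.at' (Of C K.p l e i) x * (C.rr x ^ (-4 : ℝ)) ^ 2 ≤
    9 * 4 ^ 9 * K.de x.1 ^ 2 * C.at' (Zf C K.p l g) x := by
  rw [← Real.rpow_mul_natCast (rr_pos h x).le, show (-4 * (2 : ℕ) : ℝ) = ((-800 : ℤ) : ℝ) / 100 by
    norm_num]
  refine t_lin h k x hl e i (d_kg4 e i _ (cls_lt g)) zero_le_one
    ((pw_xp h k x i).trans (mul_one _).ge) ?_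
  rw [at_Z]
  exact mul_le_mul_of_nonneg_right (pz_one (k.pl x h).1 g) (Mx_pos h _).le

/-- The quadratic terms. -/
theorem t_gv (g : Gi) (j : Fin 5) (o : okGV e i (cls g) j) :
    C.at' (Of C K.p l e i) x * C.at' (Sf C g) x ^ 2 ≤ 4 ^ 9 * K.pm x.1 * C.at' (C.Dw K.p l j) x := by
  obtain ⟨b, b', d⟩ := (d_gv e i _ (cls_lt g) j o).1
  have p := k.pl x h
  have e1 := (Mx_d2 h (x := x) d hl).trans
    (mul_le_mul_of_nonneg_left (lo_le h p.1 b' j) (by norm_num))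
  rw [Mx_ad h] at e1
  rw [at_S h (l := l)]
  refine (mul_le_mul_of_nonneg_right (up_le h k x b e i) (Mx_pos h _).le).trans ?_
  have := mul_le_mul_of_nonneg_left e1 (zero_le_one.trans (p.1.trans p.2.1))
  linarith

omit hl in
theorem t_up {b : Bool} {b' : Bool} {j : Fin 5} {E : Ex} {Y : ℝ}
    (d : Mx x l (up b e i) ≤ 4 ^ 9 * Mx x l (((Ex.r 100).ad (lo b' j).z).ad E))
    (hY : Mx x l E ≤ Y) : C.at' (Of C K.p l e i) x ≤
      4 ^ 9 * K.pm x.1 * (C.rr x * C.at' (C.Dt 0 j) x * Y) := by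
  have p := k.pl x h
  rw [Mx_ad h] at d
  have e1 := d.trans (mul_le_mul_of_nonneg_left (mul_le_mul (lo_z h x b' j) hY (Mx_pos h _).le
    ((Mx_pos h _).le.trans (lo_z h x (l := l) b' j))) (by norm_num))
  refine (up_le h k x b e i).trans ?_
  have := mul_le_mul_of_nonneg_left e1 (zero_le_one.trans (p.1.trans p.2.1))
  linarith

omit hl in
theorem t_gv' (g : Gi) (j : Fin 5) (o : okGV e i (cls g) j) : C.at' (Of C K.p (1 / 100) e i) x ≤
    4 ^ 9 * K.pm x.1 * (C.rr x * C.at' (C.Dt 0 j) x * C.at' (Zf C K.p (1 / 100) g) x) := by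
  obtain ⟨b, b', d⟩ := (d_gv e i _ (cls_lt g) j o).2
  refine t_up h k x e i (Mx_d1 h d) ?_
  rw [at_Z]
  exact le_mul_of_one_le_left (Mx_pos h _).le (pz_one (k.pl x h).1 g)

theorem t_vv (k1 k2 : Fin 5) (o : okVV e i k1 k2) :
    C.at' (Of C K.p l e i) x ≤
      4 ^ 9 * K.pm x.1 * (C.rr x * C.at' (C.Dt 0 k1) x * C.at' (C.Dw K.p l k2) x) ∧
    C.at' (Of C K.p l e i) x ≤
      4 ^ 9 * K.pm x.1 * (C.rr x * C.at' (C.Dt 0 k2) x * C.at' (C.Dw K.p l k1) x) := by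
  obtain ⟨⟨b, b', b2, d⟩, c, c', c2, d'⟩ := d_vv e i k1 k2 o
  exact ⟨t_up h k x e i (Mx_d2 h d hl) (lo_le h (k.pl x h).1 b2 k2),
    t_up h k x e i (Mx_d2 h d' hl) (lo_le h (k.pl x h).1 c2 k1)⟩

end Vale.Agent.P354XZ
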